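import Crest.Agent.R95.Key3

/-! Row 95: the Baire category argument, abstract part. -/

set_option autoImplicit false

open scoped InnerProductSpace ComplexOrder
open Filter Topology

namespace Crest.Agent.R95

variable {A : Type*} [CStarAlgebra A]

/-- The star algebra generated by `P` and `u`. -/
def gen (P : StarSubalgebra ℂ A) (u : A) : StarSubalgebra ℂ A :=
  StarAlgebra.adjoin ℂ (insert u (P : Set A))

theorem gen_self (P : StarSubalgebra ℂ A) (u : A) : u ∈ gen P u :=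
  StarAlgebra.subset_adjoin ℂ _ (Set.mem_insert _ _)

theorem gen_P {P : StarSubalgebra ℂ A} (u : A) {p : A} (hp : p ∈ P) : p ∈ gen P u :=
  StarAlgebra.subset_adjoin ℂ _ (Set.mem_insert_of_mem _ hp)

theorem oprod_gen {S : StarSubalgebra ℂ A} {z : ℕ → A} (hz : ∀ t, z t ∈ S) (s m : ℕ) :
    oprod z s m ∈ S := by
  induction m with
  | zero => exact one_mem S
  | succ m ih => exact mul_mem ih (hz _)

theorem exists_q {x : A} (hx : IsSelfAdjoint x) (h1 : ‖x‖ ≤ 1) :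
    ∃ q ∈ unitary A, ∃ s : A, IsSelfAdjoint s ∧ q = x + Complex.I • s := by
  let := CStarAlgebra.spectralOrder A
  have := CStarAlgebra.spectralOrderedRing A
  exact ⟨_, IsSelfAdjoint.self_add_I_smul_cfcSqrt_sub_sq_mem_unitary x hx h1, _,
    (CFC.sqrt_nonneg _).isSelfAdjoint, rfl⟩

namespace TS

variable (T : TS A) {P : StarSubalgebra ℂ A}

theorem near {u b : A} (hb : b ∈ gen P u) : ∃ C, ∀ v ∈ unitary A, ∃ b' ∈ gen P v,
    ‖b'‖ ≤ C ∧ T.n2 (b - b') ≤ C * T.n2 (u - v) := by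
  have h0 : ∀ b ∈ P, ∃ C, ∀ v ∈ unitary A, ∃ b' ∈ gen P v,
      ‖b'‖ ≤ C ∧ T.n2 (b - b') ≤ C * T.n2 (u - v) := fun b hb => ⟨‖b‖, fun v _ => ⟨b, gen_P v hb,
    le_rfl, by rw [sub_self, n2_zero]; exact mul_nonneg (norm_nonneg _) (T.n2_nonneg _)⟩⟩
  induction hb using StarAlgebra.adjoin_induction with
  | mem x h =>
    rcases h with rfl | h
    · exact ⟨1, fun v hv => ⟨v, gen_self P v, norm_unitary_le hv, by rw [one_mul]⟩⟩
    · exact h0 x h
  | algebraMap r => exact h0 _ (algebraMap_mem P r)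
  | add x y _ _ hx hy =>
    obtain ⟨C, hC⟩ := hx
    obtain ⟨D, hD⟩ := hy
    refine ⟨C + D, fun v hv => ?_⟩
    obtain ⟨a, a1, a2, a3⟩ := hC v hv
    obtain ⟨b, b1, b2, b3⟩ := hD v hv
    refine ⟨a + b, add_mem a1 b1, (norm_add_le _ _).trans (add_le_add a2 b2), ?_⟩
    rw [show x + y - (a + b) = (x - a) + (y - b) by abel, add_mul]
    exact (T.n2_add_le _ _).trans (add_le_add a3 b3)
  | mul x y _ _ hx hy =>
    obtain ⟨C, hC⟩ := hx
    obtain ⟨D, hD⟩ := hy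
    refine ⟨‖x‖ * D + C * D, fun v hv => ?_⟩
    obtain ⟨a, a1, a2, a3⟩ := hC v hv
    obtain ⟨b, b1, b2, b3⟩ := hD v hv
    have hD0 : 0 ≤ D := (norm_nonneg _).trans b2
    have hC0 : 0 ≤ C := (norm_nonneg _).trans a2
    refine ⟨a * b, mul_mem a1 b1, ?_, ?_⟩
    · have := (norm_mul_le a b).trans (mul_le_mul a2 b2 (norm_nonneg _) hC0)
      have := mul_nonneg (norm_nonneg x) hD0
      linarith
    · rw [show x * y - a * b = x * (y - b) + (x - a) * b by noncomm_ring]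
      have h1 := (T.n2_mul_le x (y - b)).trans (mul_le_mul_of_nonneg_left b3 (norm_nonneg _))
      have h2 := (T.n2_mul_le' (x - a) b).trans (mul_le_mul a3 b2 (norm_nonneg _)
        (mul_nonneg hC0 (T.n2_nonneg _)))
      have h3 := T.n2_add_le (x * (y - b)) ((x - a) * b)
      linarith
  | star x _ hx =>
    obtain ⟨C, hC⟩ := hx
    refine ⟨C, fun v hv => ?_⟩
    obtain ⟨a, a1, a2, a3⟩ := hC v hv
    exact ⟨star a, star_mem a1, by rwa [norm_star], by rwa [← star_sub, n2_star]⟩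

/-- `x` is at distance less than `c` from the algebra generated by `P` and `u`. -/
def Nr (P : StarSubalgebra ℂ A) (x : A) (c : ℝ) (u : A) : Prop :=
  ∃ b ∈ gen P u, T.n2 (x - b) < c

theorem Nr_open {x u : A} {c : ℝ} (h : T.Nr P x c u) :
    ∃ δ > 0, ∀ v ∈ unitary A, T.n2 (u - v) < δ → T.Nr P x c v := by
  obtain ⟨b, hb, h⟩ := h
  obtain ⟨C, hC⟩ := T.near hb
  refine ⟨(c - T.n2 (x - b)) / (|C| + 1), div_pos (by linarith) (by positivity),
    fun v hv hd => ?_⟩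
  obtain ⟨b', h1, -, h3⟩ := hC v hv
  refine ⟨b', h1, (T.n2_tri x b b').trans_lt ?_⟩
  rw [lt_div_iff₀ (by positivity)] at hd
  have := T.n2_nonneg (u - v)
  nlinarith [le_abs_self C]

/-- The threshold. -/
noncomputable def thr (x : A) (μ : ℝ) : ℝ := √((1 - μ ^ 5) * T.n2 x ^ 2 + 52 * μ ^ 6)

theorem Nr_dense (hD : T.Dix P) (hS : T.Sym P) {u x : A} (hu : u ∈ unitary A)
    (hx : IsSelfAdjoint x) (h1 : ‖x‖ ≤ 1) {μ η : ℝ} (hμ : 0 < μ) (hμ1 : 25 * μ ≤ 1) (hη : 0 < η) :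
    ∃ v ∈ unitary A, T.n2 (v - u) < η ∧ T.Nr P x (T.thr x μ) v := by
  obtain ⟨q, hq, s, hs, rfl⟩ := exists_q hx h1
  obtain ⟨v, hv, h2, n, a, a0, ha, ha0, h3⟩ := T.key hD hS hu h1 hq hμ hμ1 hη
  have hw : oprod (fun t => v * a t) 0 n * a0 ∈ gen P v :=
    mul_mem (oprod_gen (fun t => mul_mem (gen_self P v) (gen_P v (ha t))) 0 n) (gen_P v ha0)
  generalize oprod (fun t => v * a t) 0 n * a0 = w at h3 hw
  have e : (T.τ (x * (x + Complex.I • s))).re = T.n2 x ^ 2 := by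
    have : (T.τ (x * s)).im = 0 := by
      have h := T.τ_star (x * s)
      rw [star_mul, hs.star_eq, hx.star_eq, T.comm] at h
      have := congrArg Complex.im h
      simp at this; linarith
    rw [mul_add, mul_smul_comm, map_add, map_smul, n2_sq, hx.star_eq]
    simp [this]
  refine ⟨v, hv, h2, ((2 * μ ^ 3 : ℝ) : ℂ) • w, SMulMemClass.smul_mem _ hw,
    Real.lt_sqrt_of_sq_lt ?_⟩
  rw [n2_sub_sq, n2_csmul, hx.star_eq, mul_smul_comm, map_smul, smul_eq_mul, Complex.re_ofReal_mul,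
    Complex.norm_real, Real.norm_eq_abs, mul_pow, sq_abs]
  rw [e] at h3
  have := mul_lt_mul_of_pos_left h3 (show 0 < 4 * μ ^ 3 by positivity)
  nlinarith

set_option linter.unusedVariables false in
/-- The unitary group with the trace pseudometric. -/
def UU (T : TS A) : Type _ := unitary A

noncomputable instance : PseudoMetricSpace T.UU :=
  PseudoMetricSpace.induced (fun u : unitary A => T.v (u : A)) inferInstance

theorem dist_UU (u v : T.UU) : dist u v = T.n2 (u.1 - v.1) := by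
  rw [n2, map_sub, ← dist_eq_norm]; rfl

theorem complete_UU (hc : T.Comp) (hf : T.Faith) : CompleteSpace T.UU := by
  refine Metric.complete_of_cauchySeq_tendsto fun u hu => ?_
  obtain ⟨y, hy1, hy⟩ := hc (fun k => (u k).1) 1 (fun k => norm_unitary_le (u k).2) fun ε hε => by
    obtain ⟨N, hN⟩ := Metric.cauchySeq_iff.1 hu ε hε
    exact ⟨N, fun k hk l hl => by rw [← dist_UU]; exact (hN k hk l hl).le⟩
  have key : ∀ (a : ℕ → A) (y : A), (∀ k, a k ∈ unitary A) → ‖y‖ ≤ 1 →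
      (∀ ε > 0, ∃ N, ∀ k ≥ N, T.n2 (a k - y) ≤ ε) → star y * y = 1 := fun a y ha hy1 hy => by
    rw [← sub_eq_zero]
    refine hf _ (le_antisymm (le_of_forall_pos_le_add fun ε hε => ?_) (T.n2_nonneg _))
    obtain ⟨N, hN⟩ := hy (ε / 2) (half_pos hε)
    have h := hN N le_rfl
    have e : star y * y - 1 = -(star (a N - y) * y) + -(star (a N) * (a N - y)) := by
      rw [mul_sub (star (a N)), Unitary.star_mul_self_of_mem (ha N), star_sub]; noncomm_ring
    have h1 := T.n2_mul_le' (star (a N - y)) y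
    rw [n2_star] at h1
    have h2 := T.n2_unitary_mul (Unitary.star_mem (ha N)) (a N - y)
    have h3 := mul_le_mul h hy1 (norm_nonneg _) (half_pos hε).le
    rw [e]
    refine (T.n2_add_le _ _).trans ?_
    rw [n2_neg, n2_neg]
    linarith
  have hyu : y ∈ unitary A := ⟨key _ y (fun k => (u k).2) hy1 hy, by
    have := key (fun k => star (u k).1) (star y) (fun k => Unitary.star_mem (u k).2)
      (by rwa [norm_star]) fun ε hε => by simpa only [← star_sub, n2_star] using hy ε hε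
    rwa [star_star] at this⟩
  refine ⟨⟨y, hyu⟩, Metric.tendsto_atTop.2 fun ε hε => ?_⟩
  obtain ⟨N, hN⟩ := hy (ε / 2) (half_pos hε)
  exact ⟨N, fun k hk => (T.dist_UU _ _).trans_lt ((hN k hk).trans_lt (half_lt_self hε))⟩

theorem baire (hD : T.Dix P) (hS : T.Sym P) (hc : T.Comp) (hf : T.Faith) {x : ℕ → A}
    (hx : ∀ k, IsSelfAdjoint (x k) ∧ ‖x k‖ ≤ 1) {μ : ℕ → ℝ} (hμ : ∀ k, 0 < μ k ∧ 25 * μ k ≤ 1)
    {u : A} (hu : u ∈ unitary A) {ε : ℝ} (hε : 0 < ε) :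
    ∃ v ∈ unitary A, T.n2 (v - u) < ε ∧ ∀ k, T.Nr P (x k) (T.thr (x k) (μ k)) v := by
  have := T.complete_UU hc hf
  have := dense_iInter_of_isOpen
    (f := fun k => {v : T.UU | T.Nr P (x k) (T.thr (x k) (μ k)) v.1}) (fun k => ?_) (fun k => ?_)
  · obtain ⟨v, hv, h⟩ := Metric.dense_iff.1 this ⟨u, hu⟩ ε hε
    exact ⟨v.1, v.2, (T.dist_UU _ _).symm.trans_lt hv, Set.mem_iInter.1 h⟩
  · refine Metric.isOpen_iff.2 fun v hv => ?_
    obtain ⟨δ, hδ, h⟩ := T.Nr_open hv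
    exact ⟨δ, hδ, fun w hw => h w.1 w.2 (by rwa [Metric.mem_ball', dist_UU] at hw)⟩
  · refine Metric.dense_iff.2 fun v r hr => ?_
    obtain ⟨w, hw, h1, h2⟩ := T.Nr_dense hD hS v.2 (hx k).1 (hx k).2 (hμ k).1 (hμ k).2 hr
    exact ⟨⟨w, hw⟩, (T.dist_UU _ _).trans_lt h1, h2⟩

theorem re_τ_cfc (x y : A) {f g : ℝ → ℝ}
    (hf : Continuous f) (hg : Continuous g) (hf0 : ∀ s ∈ spectrum ℝ x, 0 ≤ f s)
    (hg0 : ∀ s, 0 ≤ g s) : 0 ≤ (T.τ (cfc f x * cfc g y)).re := by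
  have e : ∀ (z : A) (h : ℝ → ℝ), Continuous h → (∀ s ∈ spectrum ℝ z, 0 ≤ h s) →
      ∃ c : A, star c = c ∧ cfc h z = c * c := fun z h hh h0 =>
    ⟨cfc (fun s => √(h s)) z, (cfc_predicate _ _ : IsSelfAdjoint _).star_eq, by
      rw [← cfc_mul _ _ z]
      exact cfc_congr fun s hs => (Real.mul_self_sqrt (h0 s hs)).symm⟩
  obtain ⟨a, a1, a2⟩ := e x f hf hf0
  obtain ⟨b, b1, b2⟩ := e y g hg fun s _ => hg0 s
  have := (Complex.nonneg_iff.1 (T.pos (a * b))).1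
  rw [star_mul, a1, b1, mul_assoc, T.comm] at this
  rw [a2, b2]
  simpa only [mul_assoc] using this

theorem clamp {x y : A} (hx : IsSelfAdjoint x) (hy : IsSelfAdjoint y) {r : ℝ} (hr : ‖x‖ ≤ r) :
    T.n2 (x - cfc (fun s : ℝ => max (-r) (min s r)) y) ≤ T.n2 (x - y) := by
  have hr0 : 0 ≤ r := (norm_nonneg _).trans hr
  have hsp : ∀ s ∈ spectrum ℝ x, |s| ≤ r := fun s hs => by
    rcases subsingleton_or_nontrivial A with h | h
    · simp [spectrum.of_subsingleton] at hs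
    exact (spectrum.norm_le_norm_of_mem hs).trans hr
  have h1 := T.re_τ_cfc x y (f := fun s => r - s) (g := fun s => max (s - r) 0) (by fun_prop)
    (by fun_prop) (fun s hs => by linarith [(abs_le.1 (hsp s hs)).2]) fun s => le_max_right _ _
  have h2 := T.re_τ_cfc x y (f := fun s => r + s) (g := fun s => max (-r - s) 0) (by fun_prop)
    (by fun_prop) (fun s hs => by linarith [(abs_le.1 (hsp s hs)).1]) fun s => le_max_right _ _
  rw [cfc_sub _ _ x, cfc_const _ _ hx, cfc_id' ℝ x, Algebra.algebraMap_eq_smul_one] at h1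
  rw [cfc_add x _ _, cfc_const _ _ hx, cfc_id' ℝ x, Algebra.algebraMap_eq_smul_one] at h2
  set c := cfc (fun s : ℝ => max (-r) (min s r)) y with hc
  set p := cfc (fun s : ℝ => max (s - r) 0) y with hp
  set q := cfc (fun s : ℝ => max (-r - s) 0) y with hq
  have e1 : y - c = p - q := by
    nth_rewrite 1 [← cfc_id' ℝ y]
    rw [hc, hp, hq, ← cfc_sub _ _ y, ← cfc_sub _ _ y]
    refine cfc_congr fun s _ => ?_
    simp only [max_def, min_def]; split_ifs <;> linarith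
  have e2 : c * p = r • p := by
    rw [hc, hp, ← cfc_mul _ _ y, ← cfc_const_mul _ _ y]
    refine cfc_congr fun s _ => ?_
    simp only [max_def, min_def]; split_ifs <;> nlinarith
  have e3 : c * q = (-r) • q := by
    rw [hc, hq, ← cfc_mul _ _ y, ← cfc_const_mul _ _ y]
    refine cfc_congr fun s _ => ?_
    simp only [max_def, min_def]; split_ifs <;> nlinarith
  have hcs : star c = c := (cfc_predicate _ _ : IsSelfAdjoint c).star_eq
  have e4 : star (x - c) * (y - c) = -((r • 1 - x) * p) - (r • 1 + x) * q := by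
    rw [e1, star_sub, hx.star_eq, hcs, sub_mul, mul_sub c, e2, e3]
    simp only [sub_mul, add_mul, mul_sub, smul_mul_assoc, one_mul, neg_smul]
    abel
  have h3 := T.n2_sub_sq (x - c) (y - c)
  rw [e4, map_sub, map_neg, Complex.sub_re, Complex.neg_re, sub_sub_sub_cancel_right] at h3
  refine (pow_le_pow_iff_left₀ (T.n2_nonneg _) (T.n2_nonneg _) two_ne_zero).1 ?_
  nlinarith [sq_nonneg (T.n2 (y - c))]

theorem approx {B : StarSubalgebra ℂ A} (hB : IsClosed (B : Set A)) {x b : A}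
    (hx : IsSelfAdjoint x) (hb : b ∈ B) :
    ∃ c ∈ B, IsSelfAdjoint c ∧ ‖c‖ ≤ ‖x‖ ∧ T.n2 (x - c) ≤ T.n2 (x - b) := by
  have hy : IsSelfAdjoint ((2⁻¹ : ℝ) • (b + star b)) :=
    (IsSelfAdjoint.all _).smul (IsSelfAdjoint.add_star_self b)
  have hyB : (2⁻¹ : ℝ) • (b + star b) ∈ B := by
    rw [← Complex.coe_smul]; exact SMulMemClass.smul_mem _ (add_mem hb (star_mem hb))
  refine ⟨_, cfc_mem (𝕜' := ℂ) _ hyB, cfc_predicate _ _, ?_, (T.clamp hx hy le_rfl).trans ?_⟩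
  · refine norm_cfc_le (norm_nonneg _) fun s _ => ?_
    rw [Real.norm_eq_abs, abs_le]
    exact ⟨le_max_left _ _, max_le (by linarith [norm_nonneg x]) (min_le_right _ _)⟩
  · have e : x - (2⁻¹ : ℝ) • (b + star b) = (2⁻¹ : ℝ) • ((x - b) + star (x - b)) := by
      rw [star_sub, hx.star_eq]; module
    have := T.n2_add_le (x - b) (star (x - b))
    rw [n2_star] at this
    rw [e, n2_rsmul, abs_of_pos (by norm_num)]
    linarith

theorem approx_of_Nr {B : StarSubalgebra ℂ A} (hB : IsClosed (B : Set A))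
    (h : ∀ ε > 0, ∃ μ, 0 < μ ∧ μ ≤ ε ∧ ∀ z, IsSelfAdjoint z → ‖z‖ ≤ 1 → ∀ γ > 0,
      ∃ x, T.n2 (z - x) ≤ γ ∧ ∃ b ∈ B, T.n2 (x - b) < T.thr x μ)
    {x : A} (hx : IsSelfAdjoint x) (h1 : ‖x‖ ≤ 1 / 2) {ε : ℝ} (hε : 0 < ε) :
    ∃ c ∈ B, ‖c‖ ≤ 1 / 2 ∧ T.n2 (x - c) ≤ ε := by
  by_contra! hcon
  obtain ⟨μ, hμ, hμε, h⟩ := h (min (ε ^ 2 / 61) 1) (by positivity)
  have hμ1 : μ ≤ 1 := hμε.trans (min_le_right _ _)
  have hμ2 : μ ≤ ε ^ 2 / 61 := hμε.trans (min_le_left _ _)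
  have hbd : BddBelow (Set.range fun b : B => T.n2 (x - b)) :=
    ⟨0, by rintro _ ⟨b, rfl⟩; exact T.n2_nonneg _⟩
  have hd1 : ∀ b ∈ B, ⨅ b : B, T.n2 (x - b) ≤ T.n2 (x - b) := fun b hb => ciInf_le hbd ⟨b, hb⟩
  have hd2 : ε ≤ ⨅ b : B, T.n2 (x - b) := le_ciInf fun b => by
    obtain ⟨c, c1, -, c2, c3⟩ := T.approx hB hx b.2
    exact (hcon c c1 (c2.trans h1)).le.trans c3
  have hd3 : ∀ γ > 0, ∃ b : B, T.n2 (x - b) < (⨅ b : B, T.n2 (x - b)) + γ := fun γ hγ =>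
    exists_lt_of_ciInf_lt (by linarith)
  generalize ⨅ b : B, T.n2 (x - b) = d at hd1 hd2 hd3
  have hd4 : d ≤ 1 := by
    have := hd1 0 (zero_mem B)
    rw [sub_zero] at this
    linarith [T.n2_le_norm x]
  have hγ : 0 < min d (μ ^ 6) := lt_min (by linarith) (by positivity)
  have hγ1 : min d (μ ^ 6) ≤ d := min_le_left _ _
  have hγ2 : min d (μ ^ 6) ≤ μ ^ 6 := min_le_right _ _
  generalize min d (μ ^ 6) = γ at hγ hγ1 hγ2
  obtain ⟨b, hb⟩ := hd3 γ hγ
  obtain ⟨c, c1, c2, c3, c4⟩ := T.approx hB hx b.2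
  obtain ⟨y, y1, b', hb', y2⟩ := h (x - c) (hx.sub c2)
    ((norm_sub_le _ _).trans (by linarith)) γ hγ
  have h2 : d - γ ≤ T.n2 (y - b') := by
    have := hd1 (c + b') (add_mem c1 hb')
    rw [← sub_sub] at this
    linarith [T.n2_tri (x - c) y b']
  have h3 : T.n2 y ≤ d + 2 * γ := by
    have := T.n2_sub_le (x - c) (x - c - y)
    rw [sub_sub_cancel] at this
    linarith
  have h5 : 0 ≤ 1 - μ ^ 5 := sub_nonneg.2 (pow_le_one₀ hμ.le hμ1)
  have h4 := (Real.lt_sqrt (sub_nonneg.2 hγ1)).1 (h2.trans_lt y2)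
  have h6 := mul_le_mul_of_nonneg_left (pow_le_pow_left₀ (T.n2_nonneg y) h3 2) h5
  have h7 : μ ^ 5 * d ^ 2 ≤ μ ^ 5 * (d + 2 * γ) ^ 2 := by gcongr <;> linarith
  have h8 : μ ^ 5 * d ^ 2 < μ ^ 5 * (61 * μ) := by nlinarith
  have h9 := lt_of_mul_lt_mul_left h8 (by positivity)
  nlinarith

end TS

end Crest.Agent.R95
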