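import Crest.Agent.R95.Proj
import Crest.Agent.R95.Gen

/-! Row 95: generating unitaries are 2-norm dense. -/

set_option autoImplicit false
set_option linter.unusedSectionVars false

open scoped InnerProductSpace ComplexOrder
open Crest.OpAlg Crest.Agent.R124

namespace Crest.Agent.R95

variable {H : Type*} [NormedAddCommGroup H] [InnerProductSpace ℂ H] [CompleteSpace H]

/-- A von Neumann algebra seen inside `Alg M`. -/
noncomputable def sub (M P : VonNeumannAlgebra H) : StarSubalgebra ℂ (Alg M) :=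
  P.toStarSubalgebra.comap M.toStarSubalgebra.subtype

theorem mem_sub {M P : VonNeumannAlgebra H} {x : Alg M} : x ∈ sub M P ↔ (x : H →L[ℂ] H) ∈ P :=
  Iff.rfl

theorem isClosed_sub (M P : VonNeumannAlgebra H) : IsClosed (sub M P : Set (Alg M)) :=
  (isClosed_vn P).preimage continuous_subtype_val

theorem unitary_alg {M : VonNeumannAlgebra H} {x : Alg M} :
    x ∈ unitary (Alg M) ↔ (x : H →L[ℂ] H) ∈ unitary (H →L[ℂ] H) :=
  ⟨fun h => ⟨congrArg Subtype.val h.1, congrArg Subtype.val h.2⟩,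
    fun h => ⟨Subtype.ext h.1, Subtype.ext h.2⟩⟩

variable {ξ : ℕ → H} {P M : VonNeumannAlgebra H}

theorem Nr_of_gen (hξ : IsFaithfulTracialVectorState M ξ) (hPM : P ≤ M) {u : Alg M}
    (h : ∀ N : VonNeumannAlgebra H, P ≤ N → (u : H →L[ℂ] H) ∈ N → M ≤ N) {x : Alg M}
    (hx : IsSelfAdjoint x) {c : ℝ} (hc : 0 < c) : (ts hξ).Nr (sub M P) x c u := by
  have hcl : IsClosed ((gen (sub M P) u).topologicalClosure : Set (Alg M)) :=
    StarSubalgebra.isClosed_topologicalClosure _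
  let π : (gen (sub M P) u).topologicalClosure →⋆ₐ[ℂ] (H →L[ℂ] H) :=
    M.toStarSubalgebra.subtype.comp (gen (sub M P) u).topologicalClosure.subtype
  have hπ : ∀ y ∈ gen (sub M P) u, (y : H →L[ℂ] H) ∈ (vnOf (Set.range π)).commutant :=
    fun y hy => VonNeumannAlgebra.mem_commutant_iff.2 fun g hg =>
      ((mem_vnOf.1 hg _ ⟨⟨y, StarSubalgebra.le_topologicalClosure _ hy⟩, rfl⟩).1).symm
  have hM := h (vnOf (Set.range π)).commutant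
    (fun p hp => hπ ⟨p, hPM hp⟩ (gen_P u hp)) (hπ u (gen_self _ u))
  obtain ⟨N, δ, hδ, h1⟩ := n2_of_fin hξ.1 (‖x‖ + ‖x‖) (half_pos hc)
  classical
  obtain ⟨a, -, a2, a3⟩ := kaplansky π (hM x.2) (congrArg Subtype.val hx.star_eq)
    ((Finset.range N).image ξ) hδ
  have h2 : (ts hξ).n2 (a.1 - x) ≤ c / 2 := by
    rw [ts_n2]
    exact h1 _ ((norm_sub_le (a.1 : H →L[ℂ] H) x).trans (add_le_add a2 le_rfl)) fun n hn =>
      a3 _ (Finset.mem_image_of_mem _ (Finset.mem_range.2 hn))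
  obtain ⟨b, hb, h3⟩ := Metric.mem_closure_iff.1 a.2 (c / 2) (half_pos hc)
  refine ⟨b, hb, ((ts hξ).n2_tri x a.1 b).trans_lt ?_⟩
  rw [dist_eq_norm] at h3
  linarith [(ts hξ).n2_sub_comm x a.1, (ts hξ).n2_le_norm (a.1 - b)]

theorem gen_of_Nr (hξ : IsFaithfulTracialVectorState M ξ) {u : Alg M}
    (h : ∀ ε > 0, ∃ μ, 0 < μ ∧ μ ≤ ε ∧ ∀ z, IsSelfAdjoint z → ‖z‖ ≤ 1 → ∀ γ > 0,
      ∃ x, (ts hξ).n2 (z - x) ≤ γ ∧ (ts hξ).Nr (sub M P) x ((ts hξ).thr x μ) u)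
    (N : VonNeumannAlgebra H) (hP : P ≤ N) (hu : (u : H →L[ℂ] H) ∈ N) : M ≤ N := by
  have hg : gen (sub M P) u ≤ sub M N := StarAlgebra.adjoin_le (by
    rintro y (rfl | hy)
    · exact hu
    · exact hP hy)
  have h1 : ∀ x : Alg M, IsSelfAdjoint x → ‖x‖ ≤ 1 / 2 → x ∈ sub M N := fun x hx hx1 =>
    mem_of_n2_lim hξ N x.2 (C := 1 / 2) fun ε hε => by
      obtain ⟨c, c1, c2, c3⟩ := (ts hξ).approx_of_Nr (isClosed_sub M N) (fun ε hε => by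
        obtain ⟨μ, h1, h2, h3⟩ := h ε hε
        refine ⟨μ, h1, h2, fun z hz hz1 γ hγ => ?_⟩
        obtain ⟨x, h4, b, hb, h5⟩ := h3 z hz hz1 γ hγ
        exact ⟨x, h4, b, hg hb, h5⟩) hx hx1 hε
      rw [TS.n2_sub_comm, ts_n2] at c3
      exact ⟨c, c1, c.2, c2, c3⟩
  have h2 : ∀ x : Alg M, IsSelfAdjoint x → x ∈ sub M N := fun x hx => by
    have h0 : 0 < 2 * (‖x‖ + 1) := by positivity
    have := h1 ((2 * (‖x‖ + 1))⁻¹ • x) ((IsSelfAdjoint.all _).smul hx) (by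
      rw [norm_smul, norm_inv, Real.norm_eq_abs, abs_of_pos h0, inv_mul_le_iff₀ h0]
      linarith)
    have h3 := SMulMemClass.smul_mem ((2 * (‖x‖ + 1) : ℝ) : ℂ) this
    rwa [Complex.coe_smul, smul_inv_smul₀ h0.ne'] at h3
  intro x hx
  have := add_mem (h2 _ (realPart (⟨x, hx⟩ : Alg M)).2)
    (SMulMemClass.smul_mem Complex.I (h2 _ (imaginaryPart (⟨x, hx⟩ : Alg M)).2))
  rwa [realPart_add_I_smul_imaginaryPart] at this

theorem main [TopologicalSpace.SeparableSpace H] (P M : VonNeumannAlgebra H) (hPM : P ≤ M)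
    (hm : NoMin P)
    (hPM' : ∀ x ∈ M, (∀ y ∈ P, x * y = y * x) → ∃ c : ℂ, x = c • (1 : H →L[ℂ] H))
    (ξ : ℕ → H) (hξ : IsFaithfulTracialVectorState M ξ) :
    (∃ O : ℕ → Set (H →L[ℂ] H),
      (∀ k : ℕ, ∀ u ∈ M, u ∈ unitary (H →L[ℂ] H) → u ∈ O k → ∃ δ : ℝ, 0 < δ ∧
        ∀ v ∈ M, v ∈ unitary (H →L[ℂ] H) → traceNormSq ξ (v - u) < δ → v ∈ O k) ∧
      (∀ u ∈ M, u ∈ unitary (H →L[ℂ] H) →
        ((∀ N : VonNeumannAlgebra H, P ≤ N → u ∈ N → M ≤ N) ↔ ∀ k : ℕ, u ∈ O k))) ∧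
    (∀ u ∈ M, u ∈ unitary (H →L[ℂ] H) → ∀ ε : ℝ, 0 < ε →
      ∃ v ∈ M, v ∈ unitary (H →L[ℂ] H) ∧ (∀ N : VonNeumannAlgebra H, P ≤ N → v ∈ N → M ≤ N) ∧
        traceNormSq ξ (v - u) < ε) := by
  have hD : (ts hξ).Dix (sub M P) := (ts hξ).dix (isClosed_sub M P) (ts_comp hξ) (ts_faith hξ)
    fun x hx => by
      obtain ⟨c, hc⟩ := hPM' x x.2 fun y hy => congrArg Subtype.val (hx ⟨y, hPM hy⟩ hy)
      exact ⟨c, Subtype.ext hc⟩
  have hS : (ts hξ).Sym (sub M P) := (ts hξ).sym_of_partition fun ρ hρ => by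
    obtain ⟨ι, _, p, h1, h2, h3⟩ := partition hPM hξ (fun x hx h => hPM' x (hPM hx) h) hm hρ
    refine ⟨ι, inferInstance, fun i => ⟨p i, hPM (h1 i).1⟩, fun i => ⟨(h1 i).1,
      ⟨Subtype.ext (h1 i).2.1.isIdempotentElem.eq, Subtype.ext (h1 i).2.1.isSelfAdjoint.star_eq⟩,
      (h1 i).2.2⟩, fun i j hij => Subtype.ext (h2 i j hij), Subtype.ext ?_⟩
    rw [AddSubmonoidClass.coe_finsetSum]; exact h3
  obtain ⟨d, hd1, hd2⟩ := exists_dense hξ.1 {x | x ∈ M ∧ IsSelfAdjoint x ∧ ‖x‖ ≤ 1}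
    ⟨0, zero_mem M, IsSelfAdjoint.zero _, by simp⟩ fun x hx => hx.2.2
  let x : ℕ → Alg M := fun k => ⟨d k.unpair.1, (hd1 _).1⟩
  let μ : ℕ → ℝ := fun k => 1 / (25 * ((k.unpair.2 : ℝ) + 1))
  have hx : ∀ k, IsSelfAdjoint (x k) ∧ ‖x k‖ ≤ 1 := fun k =>
    ⟨Subtype.ext (hd1 _).2.1.star_eq, (hd1 _).2.2⟩
  have hμ : ∀ k, 0 < μ k ∧ 25 * μ k ≤ 1 := fun k => ⟨by positivity, by
    rw [mul_one_div, div_le_one (by positivity)]
    linarith [Nat.cast_nonneg (α := ℝ) k.unpair.2]⟩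
  have hgen : ∀ u : Alg M, (∀ k, (ts hξ).Nr (sub M P) (x k) ((ts hξ).thr (x k) (μ k)) u) →
      ∀ N : VonNeumannAlgebra H, P ≤ N → (u : H →L[ℂ] H) ∈ N → M ≤ N := fun u hu =>
    gen_of_Nr hξ fun ε hε => by
      obtain ⟨m, hm⟩ := exists_nat_one_div_lt hε
      refine ⟨1 / (25 * ((m : ℝ) + 1)), by positivity, le_trans ?_ hm.le, fun z hz hz1 γ hγ => ?_⟩
      · gcongr; linarith [Nat.cast_nonneg (α := ℝ) m]
      · obtain ⟨k, hk⟩ := hd2 z ⟨z.2, congrArg Subtype.val hz.star_eq, hz1⟩ γ hγ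
        have := hu (Nat.pair k m)
        simp only [x, μ, Nat.unpair_pair] at this
        exact ⟨_, by rw [ts_n2]; exact hk, this⟩
  have hsq : ∀ (y : Alg M) (δ : ℝ), 0 < δ → ((ts hξ).n2 y < δ ↔ traceNormSq ξ y < δ ^ 2) :=
    fun y δ hδ => by rw [ts_n2, n2, Real.sqrt_lt' hδ]
  refine ⟨⟨fun k => {u | ∃ hu : u ∈ M,
    (ts hξ).Nr (sub M P) (x k) ((ts hξ).thr (x k) (μ k)) ⟨u, hu⟩}, ?_, ?_⟩, ?_⟩
  · rintro k u hu - ⟨_, h⟩
    obtain ⟨δ, hδ, h⟩ := (ts hξ).Nr_open h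
    refine ⟨δ ^ 2, by positivity, fun v hv hv' hd => ⟨hv, h ⟨v, hv⟩ (unitary_alg.2 hv') ?_⟩⟩
    rw [TS.n2_sub_comm]
    exact (hsq _ δ hδ).2 hd
  · refine fun u hu _ => ⟨fun h k => ⟨hu, Nr_of_gen hξ hPM h (hx k).1 (Real.sqrt_pos.2 ?_)⟩,
      fun h => hgen ⟨u, hu⟩ fun k => (h k).2⟩
    have h1 := (hμ k).1
    have : 0 ≤ 1 - μ k ^ 5 := sub_nonneg.2 (pow_le_one₀ h1.le (by linarith [(hμ k).2]))
    positivity
  · intro u hu hu' ε hε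
    obtain ⟨v, hv, h1, h2⟩ := (ts hξ).baire hD hS (ts_comp hξ) (ts_faith hξ) hx hμ
      (u := ⟨u, hu⟩) (unitary_alg.2 hu') (Real.sqrt_pos.2 hε)
    refine ⟨v, v.2, unitary_alg.1 hv, hgen v h2, ?_⟩
    have := (hsq _ _ (Real.sqrt_pos.2 hε)).1 h1
    rwa [Real.sq_sqrt hε.le] at this

end Crest.Agent.R95
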