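import Mathlib

/-! Row 95 (generator problem): tracial states on a C*-algebra and the trace 2-seminorm. -/

set_option autoImplicit false

open scoped InnerProductSpace ComplexOrder

namespace Crest.Agent.R95

/-- A tracial state. -/
structure TS (A : Type*) [CStarAlgebra A] where
  τ : A →ₗ[ℂ] ℂ
  pos : ∀ x, 0 ≤ τ (star x * x)
  comm : ∀ x y, τ (x * y) = τ (y * x)
  one : τ 1 = 1

namespace TS

variable {A : Type*} [CStarAlgebra A] (T : TS A)

theorem τ_sa {x : A} (hx : IsSelfAdjoint x) : (T.τ x).im = 0 := by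
  have h1 := (Complex.nonneg_iff.1 (T.pos (1 + x))).2
  have h2 := (Complex.nonneg_iff.1 (T.pos (1 - x))).2
  have e : star (1 + x) * (1 + x) - star (1 - x) * (1 - x) = (4 : ℂ) • x := by
    rw [star_add, star_sub, star_one, hx.star_eq, show (4 : ℂ) = 1 + 1 + 1 + 1 by norm_num]
    simp only [add_smul, one_smul]
    noncomm_ring
  have := congrArg (fun z => (T.τ z).im) e
  simp only [map_sub, Complex.sub_im, map_smul, smul_eq_mul, ← h1, ← h2] at this
  simpa using this

theorem τ_star (x : A) : T.τ (star x) = (starRingEnd ℂ) (T.τ x) := by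
  have h1 := T.τ_sa (IsSelfAdjoint.add_star_self x)
  have h2 := T.τ_sa (x := Complex.I • (x - star x)) (by
    rw [IsSelfAdjoint, star_smul, star_sub, star_star]
    simp only [Complex.star_def, Complex.conj_I, neg_smul, ← smul_neg, neg_sub])
  simp only [map_add, Complex.add_im, map_smul, map_sub, smul_eq_mul, Complex.mul_im,
    Complex.I_re, zero_mul, Complex.I_im, one_mul, zero_add, Complex.sub_re] at h1 h2
  apply Complex.ext <;> simp <;> linarith

set_option linter.unusedVariables false in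
/-- The algebra with the trace semi-inner product. -/
def L (T : TS A) := A

noncomputable instance : AddCommGroup T.L := inferInstanceAs (AddCommGroup A)
noncomputable instance : Module ℂ T.L := inferInstanceAs (Module ℂ A)

/-- The identity map to `L`. -/
noncomputable def v : A ≃ₗ[ℂ] T.L := LinearEquiv.refl ℂ _

/-- The semi-inner product. -/
noncomputable abbrev core : PreInnerProductSpace.Core ℂ T.L where
  inner a b := T.τ (star (T.v.symm a) * T.v.symm b)
  conj_inner_symm := fun a b => by rw [← T.τ_star]; simp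
  re_inner_nonneg _ := (Complex.nonneg_iff.1 (T.pos _)).1
  add_left _ _ _ := by rw [map_add, star_add, add_mul, map_add]
  smul_left := by simp

noncomputable instance : SeminormedAddCommGroup T.L :=
  InnerProductSpace.Core.toSeminormedAddCommGroup (c := T.core)
noncomputable instance : InnerProductSpace ℂ T.L := InnerProductSpace.ofCore T.core

/-- The trace 2-seminorm. -/
noncomputable def n2 (x : A) : ℝ := ‖T.v x‖

theorem inner_v (x y : A) : ⟪T.v x, T.v y⟫_ℂ = T.τ (star x * y) := rfl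

theorem n2_eq (x : A) : T.n2 x = √(T.τ (star x * x)).re := rfl

theorem n2_nonneg (x : A) : 0 ≤ T.n2 x := norm_nonneg _

theorem n2_sq (x : A) : T.n2 x ^ 2 = (T.τ (star x * x)).re := by
  rw [n2_eq, Real.sq_sqrt (Complex.nonneg_iff.1 (T.pos x)).1]

theorem n2_zero : T.n2 0 = 0 := by simp [n2]
theorem n2_one : T.n2 1 = 1 := by simp [n2_eq, T.one]
theorem n2_neg (x : A) : T.n2 (-x) = T.n2 x := by simp [n2]
theorem n2_add_le (x y : A) : T.n2 (x + y) ≤ T.n2 x + T.n2 y := by
  simp only [n2, map_add]; exact norm_add_le _ _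
theorem n2_sub_le (x y : A) : T.n2 (x - y) ≤ T.n2 x + T.n2 y := by
  simp only [n2, map_sub]; exact norm_sub_le _ _
theorem n2_sub_comm (x y : A) : T.n2 (x - y) = T.n2 (y - x) := by
  simp only [n2, map_sub]; exact norm_sub_rev _ _
theorem n2_tri (x y z : A) : T.n2 (x - z) ≤ T.n2 (x - y) + T.n2 (y - z) := by
  simpa using T.n2_add_le (x - y) (y - z)
theorem n2_csmul (c : ℂ) (x : A) : T.n2 (c • x) = ‖c‖ * T.n2 x := by
  simp only [n2, map_smul, norm_smul]
theorem n2_rsmul (c : ℝ) (x : A) : T.n2 (c • x) = |c| * T.n2 x := by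
  rw [← Complex.coe_smul, n2_csmul, Complex.norm_real, Real.norm_eq_abs]
theorem n2_sum_le {ι : Type*} (s : Finset ι) (x : ι → A) :
    T.n2 (∑ i ∈ s, x i) ≤ ∑ i ∈ s, T.n2 (x i) := by
  simp only [n2, map_sum]; exact norm_sum_le _ _
theorem n2_star (x : A) : T.n2 (star x) = T.n2 x := by
  rw [n2_eq, n2_eq, star_star, T.comm]

theorem τ_rsmul (c : ℝ) (x : A) : T.τ (c • x) = c * T.τ x := by
  rw [← Complex.coe_smul, map_smul, smul_eq_mul]

/-- Cauchy-Schwarz. -/
theorem cs (x y : A) : ‖T.τ (x * y)‖ ≤ T.n2 x * T.n2 y := by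
  have := norm_inner_le_norm (𝕜 := ℂ) (T.v (star x)) (T.v y)
  rw [inner_v, star_star] at this
  rw [← T.n2_star x]; exact this

theorem norm_τ_le_n2 (x : A) : ‖T.τ x‖ ≤ T.n2 x := by
  simpa [n2_one] using T.cs 1 x

theorem n2_mul_le (a b : A) : T.n2 (a * b) ≤ ‖a‖ * T.n2 b := by
  have hsa : IsSelfAdjoint (star a * a) := IsSelfAdjoint.star_mul_self a
  set c := cfc (fun s : ℝ => √(‖a‖ ^ 2 - s)) (star a * a) with hc
  have hcs : star c = c := (cfc_predicate _ _ : IsSelfAdjoint c).star_eq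
  have hcc : c * c = (‖a‖ ^ 2) • (1 : A) - star a * a := by
    rw [hc, ← cfc_mul _ _ (star a * a), cfc_congr (g := fun s : ℝ => ‖a‖ ^ 2 - s),
      cfc_sub _ _ (star a * a), cfc_const _ _ hsa, cfc_id' ℝ (star a * a),
      Algebra.algebraMap_eq_smul_one]
    intro s hs
    rcases subsingleton_or_nontrivial A with h | h
    · simp [spectrum.of_subsingleton] at hs
    have h1 := spectrum.norm_le_norm_of_mem hs
    rw [CStarRing.norm_star_mul_self, Real.norm_eq_abs] at h1
    exact Real.mul_self_sqrt (by nlinarith [le_abs_self s])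
  have h1 := (Complex.nonneg_iff.1 (T.pos (c * b))).1
  have e : star (c * b) * (c * b) = (‖a‖ ^ 2) • (star b * b) - star (a * b) * (a * b) := by
    rw [star_mul, hcs, mul_assoc, ← mul_assoc c, hcc, star_mul]
    simp only [sub_mul, mul_sub, smul_mul_assoc, mul_smul_comm, one_mul, mul_assoc]
  rw [e, map_sub, τ_rsmul, Complex.sub_re, Complex.re_ofReal_mul, ← n2_sq, ← n2_sq] at h1
  refine (pow_le_pow_iff_left₀ (T.n2_nonneg _)
    (mul_nonneg (norm_nonneg _) (T.n2_nonneg _)) two_ne_zero).1 ?_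
  rw [mul_pow]; linarith

theorem n2_mul_le' (a b : A) : T.n2 (a * b) ≤ T.n2 a * ‖b‖ := by
  rw [← n2_star, star_mul, ← T.n2_star a, mul_comm, ← norm_star b]
  exact T.n2_mul_le _ _

theorem n2_le_norm (a : A) : T.n2 a ≤ ‖a‖ := by
  simpa [n2_one] using T.n2_mul_le a 1

theorem norm_τ_le (a : A) : ‖T.τ a‖ ≤ ‖a‖ := (T.norm_τ_le_n2 a).trans (T.n2_le_norm a)

theorem n2_unitary_mul {u : A} (hu : u ∈ unitary A) (x : A) : T.n2 (u * x) = T.n2 x := by
  rw [n2_eq, n2_eq, star_mul, mul_assoc, ← mul_assoc (star u), Unitary.star_mul_self_of_mem hu,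
    one_mul]

theorem n2_mul_unitary {u : A} (hu : u ∈ unitary A) (x : A) : T.n2 (x * u) = T.n2 x := by
  rw [← n2_star, star_mul, T.n2_unitary_mul (Unitary.star_mem hu), n2_star]

theorem n2_unitary {u : A} (hu : u ∈ unitary A) : T.n2 u = 1 := by
  simpa [n2_one] using T.n2_unitary_mul hu 1

theorem τ_conj {u : A} (hu : u ∈ unitary A) (x : A) : T.τ (u * x * star u) = T.τ x := by
  rw [T.comm, ← mul_assoc, Unitary.star_mul_self_of_mem hu, one_mul]

theorem τ_conj' {u : A} (hu : u ∈ unitary A) (x : A) : T.τ (star u * x * u) = T.τ x := by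
  simpa using T.τ_conj (Unitary.star_mem hu) x

theorem norm_unitary_le {u : A} (hu : u ∈ unitary A) : ‖u‖ ≤ 1 := by
  rcases subsingleton_or_nontrivial A with h | h
  · simp [Subsingleton.elim u 0]
  · exact (CStarRing.norm_of_mem_unitary hu).le

theorem re_τ_skew {x : A} (hx : star x = -x) : (T.τ x).re = 0 := by
  have := T.τ_star x
  rw [hx, map_neg] at this
  have h := congrArg Complex.re this
  simp at h
  linarith

theorem n2_sub_sq (x y : A) :
    T.n2 (x - y) ^ 2 = T.n2 x ^ 2 - 2 * (T.τ (star x * y)).re + T.n2 y ^ 2 := by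
  simp only [n2, map_sub]
  rw [norm_sub_sq (𝕜 := ℂ), inner_v]; rfl

theorem n2_add_sq (x y : A) :
    T.n2 (x + y) ^ 2 = T.n2 x ^ 2 + 2 * (T.τ (star x * y)).re + T.n2 y ^ 2 := by
  simp only [n2, map_add]
  rw [norm_add_sq (𝕜 := ℂ), inner_v]; rfl

theorem n2_proj_sq {e : A} (he : IsStarProjection e) : T.n2 e ^ 2 = (T.τ e).re := by
  rw [n2_sq, he.isSelfAdjoint.star_eq, he.isIdempotentElem.eq]

/-- Bounded Cauchy sequences converge. -/
def Comp : Prop := ∀ (x : ℕ → A) (C : ℝ), (∀ k, ‖x k‖ ≤ C) →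
  (∀ ε > 0, ∃ N, ∀ k ≥ N, ∀ l ≥ N, T.n2 (x k - x l) ≤ ε) →
  ∃ y : A, ‖y‖ ≤ C ∧ ∀ ε > 0, ∃ N, ∀ k ≥ N, T.n2 (x k - y) ≤ ε

/-- Faithfulness. -/
def Faith : Prop := ∀ x : A, T.n2 x = 0 → x = 0

end TS

end Crest.Agent.R95
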