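import Crest.Agent.R124.Av
import Crest.Agent.R95.TS

/-! Row 95: averages over random signs. -/

set_option autoImplicit false

open scoped InnerProductSpace ComplexOrder
open Crest.Agent.R124

namespace Crest.Agent.R95

/-- A sign. -/
def sg (b : Bool) : ℂ := if b then 1 else -1

theorem sg_mul_self (b : Bool) : sg b * sg b = 1 := by cases b <;> simp [sg]
theorem star_sg (b : Bool) : star (sg b) = sg b := by cases b <;> simp [sg]

theorem av_bool {V : Type*} [AddCommGroup V] [Module ℝ V] (f : Bool → V) :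
    av f = (2⁻¹ : ℝ) • (f true + f false) := by simp [av]

variable {ι : Type*} [Fintype ι] [DecidableEq ι]

theorem av_sg (i : ι) : av (fun ε : ι → Bool => sg (ε i)) = 0 := by
  rw [av_update i]
  simp [av_bool, sg, av_zero]

theorem av_sg_sg (i j : ι) :
    av (fun ε : ι → Bool => sg (ε i) * sg (ε j)) = if i = j then 1 else 0 := by
  split_ifs with h
  · subst h; simp only [sg_mul_self, av_const]
  · rw [av_update i]
    have : ∀ z : ℂ, sg true * z + sg false * z = 0 := fun z => by simp [sg]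
    simp [av_bool, Function.update_of_ne (Ne.symm h), this, av_zero]

theorem av_mul_const {κ : Type*} [Fintype κ] (f : κ → ℂ) (c : ℂ) :
    av (fun k => f k * c) = av f * c := (av_mul c f).symm

theorem av_lin1 (c : ι → ℂ) : av (fun ε : ι → Bool => ∑ i, sg (ε i) * c i) = 0 := by
  rw [av_sum]
  simp [av_mul_const, av_sg]

theorem av_lin2 (c : ι → ι → ℂ) :
    av (fun ε : ι → Bool => ∑ i, ∑ j, sg (ε i) * sg (ε j) * c i j) = ∑ i, c i i := by
  rw [av_sum]
  refine Finset.sum_congr rfl fun i _ => ?_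
  rw [av_sum]
  simp [av_mul_const, av_sg_sg]

variable {V : Type*} [SeminormedAddCommGroup V] [InnerProductSpace ℂ V]

theorem av_para (x y : V) : av (fun b : Bool => ‖x + sg b • y‖ ^ 2) = ‖x‖ ^ 2 + ‖y‖ ^ 2 := by
  have := parallelogram_law_with_norm ℂ x y
  simp only [av_bool, sg, if_true, one_smul, Bool.false_eq_true, if_false, neg_smul,
    ← sub_eq_add_neg, smul_eq_mul]
  nlinarith

theorem chaos1 (ξ : ι → V) (s : Finset ι) (c : V) :
    av (fun ε : ι → Bool => ‖c + ∑ i ∈ s, sg (ε i) • ξ i‖ ^ 2) = ‖c‖ ^ 2 + ∑ i ∈ s, ‖ξ i‖ ^ 2 := by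
  induction s using Finset.induction_on with
  | empty => simp [av_const]
  | insert r s hr ih =>
    rw [av_update r]
    have : ∀ (ω : ι → Bool) (b : Bool),
        c + ∑ i ∈ insert r s, sg (Function.update ω r b i) • ξ i =
          (c + ∑ i ∈ s, sg (ω i) • ξ i) + sg b • ξ r := fun ω b => by
      rw [Finset.sum_insert hr, Function.update_self, add_assoc, add_comm (sg b • ξ r)]
      congr 2
      exact Finset.sum_congr rfl fun i hi => by
        rw [Function.update_of_ne (ne_of_mem_of_not_mem hi hr)]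
    simp only [this, av_para]
    rw [av_add, ih, av_const, Finset.sum_insert hr]; ring

theorem chaos2 (ξ : ι → ι → V) (s : Finset ι) (c : V) :
    av (fun ε : ι → Bool => ‖c + ∑ i ∈ s, ∑ j ∈ s, (sg (ε i) * sg (ε j)) • ξ i j‖ ^ 2) ≤
      ‖c + ∑ i ∈ s, ξ i i‖ ^ 2 + 2 * ∑ i ∈ s, ∑ j ∈ s, ‖ξ i j‖ ^ 2 := by
  induction s using Finset.induction_on generalizing c with
  | empty => simp [av_const]
  | insert r s hr ih =>
    rw [av_update r]
    have : ∀ (ω : ι → Bool) (b : Bool),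
        c + ∑ i ∈ insert r s, ∑ j ∈ insert r s,
          (sg (Function.update ω r b i) * sg (Function.update ω r b j)) • ξ i j =
          ((c + ξ r r) + ∑ i ∈ s, ∑ j ∈ s, (sg (ω i) * sg (ω j)) • ξ i j) +
            sg b • (0 + ∑ i ∈ s, sg (ω i) • (ξ r i + ξ i r)) := fun ω b => by
      have h : ∀ i ∈ s, Function.update ω r b i = ω i := fun i hi =>
        Function.update_of_ne (ne_of_mem_of_not_mem hi hr) _ _
      simp only [Finset.sum_insert hr, Function.update_self, sg_mul_self, one_smul,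
        Finset.sum_add_distrib, zero_add, smul_add, Finset.smul_sum, smul_smul]
      have e1 : ∑ j ∈ s, (sg b * sg (Function.update ω r b j)) • ξ r j =
          ∑ j ∈ s, (sg b * sg (ω j)) • ξ r j := Finset.sum_congr rfl fun j hj => by rw [h j hj]
      have e2 : ∑ j ∈ s, (sg (Function.update ω r b j) * sg b) • ξ j r =
          ∑ j ∈ s, (sg b * sg (ω j)) • ξ j r :=
        Finset.sum_congr rfl fun j hj => by rw [h j hj, mul_comm]
      have e3 : ∑ i ∈ s, ∑ j ∈ s,
          (sg (Function.update ω r b i) * sg (Function.update ω r b j)) • ξ i j =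
          ∑ i ∈ s, ∑ j ∈ s, (sg (ω i) * sg (ω j)) • ξ i j :=
        Finset.sum_congr rfl fun i hi => Finset.sum_congr rfl fun j hj => by rw [h i hi, h j hj]
      rw [e1, e2, e3]; abel
    simp only [this, av_para]
    rw [av_add, chaos1]
    have h1 := ih (c + ξ r r)
    have h2 : ∑ i ∈ s, ‖ξ r i + ξ i r‖ ^ 2 ≤ ∑ i ∈ s, (2 * ‖ξ r i‖ ^ 2 + 2 * ‖ξ i r‖ ^ 2) :=
      Finset.sum_le_sum fun i _ => by
        have := pow_le_pow_left₀ (norm_nonneg _) (norm_add_le (ξ r i) (ξ i r)) 2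
        nlinarith [sq_nonneg (‖ξ r i‖ - ‖ξ i r‖)]
    simp only [Finset.sum_insert hr, Finset.sum_add_distrib, ← Finset.mul_sum, norm_zero,
      ← add_assoc] at h2 ⊢
    nlinarith [sq_nonneg ‖ξ r r‖]

theorem exists_av_le {κ : Type*} [Fintype κ] [Nonempty κ] (f : κ → ℝ) : ∃ k, av f ≤ f k := by
  obtain ⟨k, hk⟩ := Finite.exists_max f
  exact ⟨k, by simpa [av_const] using av_mono (g := fun _ => f k) hk⟩

theorem exists_le_av {κ : Type*} [Fintype κ] [Nonempty κ] (f : κ → ℝ) : ∃ k, f k ≤ av f := by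
  obtain ⟨k, hk⟩ := Finite.exists_min f
  exact ⟨k, by simpa [av_const] using av_mono (f := fun _ => f k) hk⟩

namespace TS

variable {A : Type*} [CStarAlgebra A] (T : TS A)

/-- The averaged trace on random variables. -/
noncomputable def pi (Ω : Type*) [Fintype Ω] [Nonempty Ω] : TS (Ω → A) where
  τ :=
    { toFun := fun f => av fun ω => T.τ (f ω)
      map_add' := fun f g => by simp only [Pi.add_apply, map_add, av_add]
      map_smul' := fun c f => by
        simp only [Pi.smul_apply, map_smul, smul_eq_mul, RingHom.id_apply, mul_av] }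
  pos f := by
    simp only [LinearMap.coe_mk, AddHom.coe_mk, av, Pi.mul_apply, Pi.star_apply]
    rw [Complex.real_smul]
    exact mul_nonneg (Complex.zero_le_real.2 (by positivity))
      (Finset.sum_nonneg fun ω _ => T.pos _)
  comm f g := by simp only [LinearMap.coe_mk, AddHom.coe_mk, Pi.mul_apply, T.comm (f _)]
  one := by simp only [LinearMap.coe_mk, AddHom.coe_mk, Pi.one_apply, T.one, av_const]

theorem pi_τ {Ω : Type*} [Fintype Ω] [Nonempty Ω] (f : Ω → A) :
    (T.pi Ω).τ f = av fun ω => T.τ (f ω) := rfl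

theorem re_av {κ : Type*} [Fintype κ] (f : κ → ℂ) : (av f).re = av fun k => (f k).re :=
  (av_map Complex.reLm f).symm

theorem pi_n2_sq {Ω : Type*} [Fintype Ω] [Nonempty Ω] (f : Ω → A) :
    (T.pi Ω).n2 f ^ 2 = av fun ω => T.n2 (f ω) ^ 2 := by
  simp only [n2_sq, pi_τ, re_av, Pi.mul_apply, Pi.star_apply]

theorem τ_av {κ : Type*} [Fintype κ] (f : κ → A) : T.τ (av f) = av fun k => T.τ (f k) :=
  (av_map (T.τ.restrictScalars ℝ) f).symm

theorem n2_av_le {κ : Type*} [Fintype κ] {f : κ → A} {c : ℝ} (hc : 0 ≤ c)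
    (h : ∀ k, T.n2 (f k) ≤ c) : T.n2 (av f) ≤ c := by
  rw [av, n2_rsmul, abs_of_nonneg (by positivity)]
  refine le_trans ?_ (av_le hc h)
  rw [av, smul_eq_mul]
  exact mul_le_mul_of_nonneg_left (T.n2_sum_le _ _) (by positivity)

/-- Second-chaos bound for a quadratic expression in skew random-sign sums. -/
theorem quad_bound {κ : Type*} (J : Finset κ) (D : Finset (κ × κ)) (hD : D ⊆ J ×ˢ J)
    (y : κ → ι → A) (hy : ∀ j α, star (y j α) = -y j α) :
    av (fun ε : ι → Bool => T.n2 (∑ p ∈ D,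
        (∑ α, sg (ε α) • y p.1 α) * (∑ α, sg (ε α) • y p.2 α)) ^ 2) ≤
      3 * (∑ j ∈ J, ∑ k ∈ J, T.n2 (∑ α, y j α * y k α)) ^ 2 := by
  let ξ : ι → ι → A := fun α β => ∑ p ∈ D, y p.1 α * y p.2 β
  have e : ∀ ε : ι → Bool, (∑ p ∈ D,
      (∑ α, sg (ε α) • y p.1 α) * (∑ α, sg (ε α) • y p.2 α)) =
      ∑ α, ∑ β, (sg (ε α) * sg (ε β)) • ξ α β := fun ε => by
    simp only [ξ, Finset.smul_sum]
    simp only [Finset.sum_comm (s := Finset.univ) (t := D)]
    refine Finset.sum_congr rfl fun j _ => ?_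
    simp only [Finset.sum_mul_sum, smul_mul_smul_comm]
  have h := chaos2 (fun α β => T.v (ξ α β)) Finset.univ 0
  simp only [zero_add, ← map_smul, ← map_sum] at h
  simp only [e]
  refine le_trans h ?_
  let C : κ → κ → ℝ := fun j k => T.n2 (∑ α, y j α * y k α)
  have hC : ∀ j k, 0 ≤ C j k := fun j k => T.n2_nonneg _
  set S := ∑ j ∈ J, ∑ k ∈ J, T.n2 (∑ α, y j α * y k α) with hS
  have hS0 : 0 ≤ S := Finset.sum_nonneg fun j _ => Finset.sum_nonneg fun k _ => T.n2_nonneg _
  have h1 : T.n2 (∑ α, ξ α α) ≤ S := by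
    simp only [ξ, Finset.sum_comm (s := Finset.univ) (t := D)]
    refine (T.n2_sum_le _ _).trans ?_
    rw [hS, ← Finset.sum_product']
    exact Finset.sum_le_sum_of_subset_of_nonneg hD fun _ _ _ => T.n2_nonneg _
  have h2 : ∑ α, ∑ β, T.n2 (ξ α β) ^ 2 ≤ S ^ 2 := by
    have e2 : ∑ α, ∑ β, T.τ (star (ξ α β) * ξ α β) = ∑ q ∈ D, ∑ p ∈ D,
          T.τ ((∑ α, y q.1 α * y p.1 α) * ∑ β, y p.2 β * y q.2 β) := by
      simp only [ξ, star_sum, Finset.sum_mul_sum, map_sum]
      simp only [Finset.sum_comm (s := Finset.univ) (t := D)]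
      refine Finset.sum_congr rfl fun q _ => Finset.sum_congr rfl fun p _ =>
        Finset.sum_congr rfl fun α _ => Finset.sum_congr rfl fun β _ => ?_
      rw [star_mul, hy, hy, neg_mul_neg, mul_assoc, T.comm]
      simp only [mul_assoc]
    have e3 := congrArg Complex.re e2
    simp only [Complex.re_sum, ← n2_sq] at e3
    rw [e3]
    calc _ ≤ ∑ q ∈ D, ∑ p ∈ D, C q.1 p.1 * C p.2 q.2 :=
          Finset.sum_le_sum fun q _ => Finset.sum_le_sum fun p _ =>
            (Complex.re_le_norm _).trans (T.cs _ _)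
      _ ≤ ∑ q ∈ J ×ˢ J, ∑ p ∈ J ×ˢ J, C q.1 p.1 * C p.2 q.2 := by
          refine (Finset.sum_le_sum fun q _ => Finset.sum_le_sum_of_subset_of_nonneg hD
            fun _ _ _ => mul_nonneg (hC _ _) (hC _ _)).trans ?_
          exact Finset.sum_le_sum_of_subset_of_nonneg hD fun _ _ _ =>
            Finset.sum_nonneg fun _ _ => mul_nonneg (hC _ _) (hC _ _)
      _ = S ^ 2 := by
          simp only [Finset.sum_product, sq, hS, Finset.sum_mul_sum]
          refine Finset.sum_congr rfl fun a _ => ?_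
          calc ∑ b ∈ J, ∑ c ∈ J, ∑ d ∈ J, C a c * C d b
              = ∑ c ∈ J, ∑ b ∈ J, ∑ d ∈ J, C a c * C d b := Finset.sum_comm
            _ = ∑ c ∈ J, ∑ d ∈ J, ∑ b ∈ J, C a c * C d b :=
              Finset.sum_congr rfl fun c _ => Finset.sum_comm
            _ = ∑ d ∈ J, ∑ c ∈ J, ∑ b ∈ J, C a c * C d b := Finset.sum_comm
  have h3 := pow_le_pow_left₀ (T.n2_nonneg _) h1 2
  change T.n2 _ ^ 2 + 2 * ∑ α, ∑ β, T.n2 (ξ α β) ^ 2 ≤ _
  linarith

/-- Fourth moment of a random-sign sum of unitaries. -/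
theorem four_bound (w : ι → A) (hw : ∀ α, w α ∈ unitary A) (c : ℝ)
    (hc : c ^ 2 * Fintype.card ι = 1) :
    av (fun ε : ι → Bool => T.n2 (star (∑ α, sg (ε α) • c • w α) *
      (∑ α, sg (ε α) • c • w α)) ^ 2) ≤ 3 := by
  let ξ : ι → ι → A := fun α β => (c ^ 2) • (star (w α) * w β)
  have e : ∀ ε : ι → Bool, star (∑ α, sg (ε α) • c • w α) * (∑ α, sg (ε α) • c • w α) =
      ∑ α, ∑ β, (sg (ε α) * sg (ε β)) • ξ α β := fun ε => by
    simp only [ξ, star_sum, star_smul, star_sg, Finset.sum_mul_sum, smul_mul_smul_comm,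
      star_trivial, sq]
  have h := chaos2 (fun α β => T.v (ξ α β)) Finset.univ 0
  simp only [zero_add, ← map_smul, ← map_sum] at h
  simp only [e]
  refine le_trans h ?_
  have h1 : ∑ α, ξ α α = 1 := by
    simp only [ξ, Unitary.star_mul_self_of_mem (hw _), Finset.sum_const, Finset.card_univ]
    rw [← Nat.cast_smul_eq_nsmul ℝ, smul_smul, mul_comm, hc, one_smul]
  have h2 : ∀ α β, T.n2 (ξ α β) ^ 2 = c ^ 2 * c ^ 2 := fun α β => by
    simp only [ξ]
    rw [n2_rsmul, T.n2_unitary (mul_mem (Unitary.star_mem (hw α)) (hw β)), mul_one, sq_abs, sq]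
  change T.n2 _ ^ 2 + 2 * ∑ α, ∑ β, T.n2 (ξ α β) ^ 2 ≤ _
  simp only [h1, h2, n2_one, Finset.sum_const, Finset.card_univ, nsmul_eq_mul]
  have : (Fintype.card ι : ℝ) * (Fintype.card ι * (c ^ 2 * c ^ 2)) = 1 := by
    calc _ = (c ^ 2 * Fintype.card ι) * (c ^ 2 * Fintype.card ι) := by ring
      _ = 1 := by rw [hc, one_mul]
  rw [this]; norm_num

end TS

end Crest.Agent.R95
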