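import Crest.Agent.R95.Chaos

/-! Row 95: relative Dixmier averaging in the 2-norm. -/

set_option autoImplicit false

open scoped InnerProductSpace ComplexOrder
open Crest.Agent.R124

namespace Crest.Agent.R95

variable {A : Type*} [CStarAlgebra A]

/-- Unitaries of `P`. -/
def UP (P : StarSubalgebra ℂ A) (w : A) : Prop := w ∈ P ∧ w ∈ unitary A

theorem UP.mul {P : StarSubalgebra ℂ A} {v w : A} (hv : UP P v) (hw : UP P w) : UP P (v * w) :=
  ⟨mul_mem hv.1 hw.1, mul_mem hv.2 hw.2⟩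

theorem UP.star {P : StarSubalgebra ℂ A} {v : A} (hv : UP P v) : UP P (star v) :=
  ⟨star_mem hv.1, Unitary.star_mem hv.2⟩

theorem comm_of_UP {P : StarSubalgebra ℂ A} (hP : IsClosed (P : Set A)) {y : A}
    (h : ∀ u, UP P u → y * u = u * y) : ∀ p ∈ P, y * p = p * y := by
  intro p hp
  obtain ⟨u, c, e, -⟩ := CStarAlgebra.exists_sum_four_unitary (⟨p, hp⟩ : P)
  have e' : p = ∑ i, c i • ((u i : P) : A) := by
    have := congrArg (fun z : P => (z : A)) e
    simpa using this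
  rw [e', Finset.mul_sum, Finset.sum_mul]
  refine Finset.sum_congr rfl fun i _ => ?_
  rw [mul_smul_comm, smul_mul_assoc, h _ ⟨(u i : P).2, ?_⟩]
  exact ⟨congrArg Subtype.val (u i).2.1, congrArg Subtype.val (u i).2.2⟩

namespace TS

variable (T : TS A)

theorem n2_conj {u : A} (hu : u ∈ unitary A) (x : A) : T.n2 (u * x * star u) = T.n2 x := by
  rw [T.n2_mul_unitary (Unitary.star_mem hu), T.n2_unitary_mul hu]

theorem n2_conj' {u : A} (hu : u ∈ unitary A) (x : A) : T.n2 (star u * x * u) = T.n2 x := by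
  rw [T.n2_mul_unitary hu, T.n2_unitary_mul (Unitary.star_mem hu)]

theorem n2_av_conj {κ : Type*} [Fintype κ] [Nonempty κ] {w : κ → A} (hw : ∀ k, w k ∈ unitary A)
    {x : A} {c : ℂ} {ε : ℝ} (h : T.n2 (x - c • 1) ≤ ε) :
    T.n2 (av (fun k => w k * x * star (w k)) - c • 1) ≤ ε := by
  rw [← av_const (ι := κ) (c • (1 : A)), ← av_sub]
  refine T.n2_av_le ((T.n2_nonneg _).trans h) fun k => ?_
  have : w k * x * star (w k) - c • 1 = w k * (x - c • 1) * star (w k) := by
    rw [mul_sub, sub_mul, mul_smul_comm, mul_one, smul_mul_assoc,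
      Unitary.mul_star_self_of_mem (hw k)]
  rw [this, T.n2_conj (hw k)]; exact h

variable {P : StarSubalgebra ℂ A}

theorem dix_one (hP : IsClosed (P : Set A)) (hc : T.Comp) (hf : T.Faith)
    (hirr : ∀ x : A, (∀ y ∈ P, x * y = y * x) → ∃ c : ℂ, x = c • 1) (x : A) {ε : ℝ} (hε : 0 < ε) :
    ∃ (ι : Type) (_ : Fintype ι) (_ : Nonempty ι) (w : ι → A), (∀ i, UP P (w i)) ∧
      T.n2 (av (fun i => w i * x * star (w i)) - T.τ x • 1) ≤ ε := by
  let C : Set A := {c | ∃ (ι : Type) (_ : Fintype ι) (_ : Nonempty ι) (w : ι → A),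
    (∀ i, UP P (w i)) ∧ c = av (fun i => w i * x * star (w i))}
  have hC1 : ∀ c ∈ C, ‖c‖ ≤ ‖x‖ ∧ T.τ c = T.τ x := by
    rintro _ ⟨ι, _, _, w, hw, rfl⟩
    refine ⟨norm_av_le (norm_nonneg _) fun i => ?_, ?_⟩
    · rw [CStarRing.norm_mul_mem_unitary _ (Unitary.star_mem (hw i).2),
        CStarRing.norm_mem_unitary_mul _ (hw i).2]
    · simp only [τ_av, T.τ_conj (hw _).2, av_const]
  have hC2 : ∀ c ∈ C, ∀ c' ∈ C, (2⁻¹ : ℝ) • (c + c') ∈ C := by
    rintro _ ⟨ι, _, _, w, hw, rfl⟩ _ ⟨κ, _, _, w', hw', rfl⟩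
    refine ⟨Bool × ι × κ, inferInstance, inferInstance, fun p => if p.1 then w p.2.1 else w' p.2.2,
      fun p => by dsimp only; split_ifs; exacts [hw _, hw' _], ?_⟩
    rw [av_prod, av_bool, av_prod, av_prod]
    simp only [if_true, Bool.false_eq_true, if_false, av_const]
  have hC3 : ∀ c ∈ C, ∀ u, UP P u → u * c * star u ∈ C := by
    rintro _ ⟨ι, _, _, w, hw, rfl⟩ u hu
    refine ⟨ι, inferInstance, inferInstance, fun i => u * w i, fun i => hu.mul (hw i), ?_⟩
    simp only [mul_av, av_mul, star_mul, mul_assoc]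
  have hne : C.Nonempty := ⟨_, Unit, inferInstance, inferInstance, fun _ => 1,
    fun _ => ⟨one_mem _, one_mem _⟩, rfl⟩
  set d := sInf ((fun c => T.n2 c ^ 2) '' C) with hd
  have hbd : BddBelow ((fun c => T.n2 c ^ 2) '' C) := ⟨0, by rintro _ ⟨c, -, rfl⟩; positivity⟩
  have hd1 : ∀ c ∈ C, d ≤ T.n2 c ^ 2 := fun c hc => csInf_le hbd ⟨c, hc, rfl⟩
  have hd2 : ∀ k : ℕ, ∃ c ∈ C, T.n2 c ^ 2 ≤ d + 1 / (k + 1) := fun k => by
    obtain ⟨_, ⟨c, hc, rfl⟩, h⟩ := exists_lt_of_csInf_lt (hne.image fun c => T.n2 c ^ 2)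
      (lt_add_of_pos_right d (show (0 : ℝ) < 1 / (k + 1) by positivity))
    exact ⟨c, hc, h.le⟩
  choose c hc1 hc2 using hd2
  have hpar : ∀ a ∈ C, ∀ b ∈ C, T.n2 (a - b) ^ 2 ≤ 2 * (T.n2 a ^ 2 - d) + 2 * (T.n2 b ^ 2 - d) := by
    intro a ha b hb
    have h1 := hd1 _ (hC2 a ha b hb)
    rw [n2_rsmul, mul_pow, n2_add_sq] at h1
    rw [n2_sub_sq]
    norm_num at h1
    linarith
  have hsm : ∀ δ > 0, ∃ N : ℕ, ∀ k ≥ N, 4 * (1 / ((k : ℝ) + 1)) ≤ δ ^ 2 := fun δ hδ => by
    obtain ⟨N, hN⟩ := exists_nat_one_div_lt (show 0 < δ ^ 2 / 4 by positivity)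
    refine ⟨N, fun k hk => ?_⟩
    have : 1 / ((k : ℝ) + 1) ≤ 1 / ((N : ℝ) + 1) := by gcongr
    linarith
  obtain ⟨y, -, hy⟩ := hc c ‖x‖ (fun k => (hC1 _ (hc1 k)).1) fun δ hδ => by
    obtain ⟨N, hN⟩ := hsm δ hδ
    refine ⟨N, fun k hk l hl => ?_⟩
    refine (pow_le_pow_iff_left₀ (T.n2_nonneg _) hδ.le two_ne_zero).1 ?_
    linarith [hpar _ (hc1 k) _ (hc1 l), hc2 k, hc2 l, hN k hk, hN l hl]
  obtain ⟨s, hs⟩ := hirr y (comm_of_UP hP fun u hu => by
    have h0 : u * y * star u - y = 0 := hf _ (le_antisymm (le_of_forall_pos_le_add fun δ hδ => by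
      obtain ⟨N, hN⟩ := hsm (δ / 3) (by positivity)
      obtain ⟨N', hN'⟩ := hy (δ / 3) (by positivity)
      have h1 := hN' (max N N') (le_max_right _ _)
      have h2 : T.n2 (u * c (max N N') * star u - c (max N N')) ≤ δ / 3 := by
        refine (pow_le_pow_iff_left₀ (T.n2_nonneg _) (by positivity) two_ne_zero).1 ?_
        have := hpar _ (hC3 _ (hc1 (max N N')) u hu) _ (hc1 (max N N'))
        rw [T.n2_conj hu.2] at this
        linarith [hc2 (max N N'), hN _ (le_max_left N N')]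
      have h3 : T.n2 (u * y * star u - u * c (max N N') * star u) ≤ δ / 3 := by
        rw [← sub_mul, ← mul_sub, T.n2_conj hu.2, n2_sub_comm]; exact h1
      linarith [T.n2_tri (u * y * star u) (u * c (max N N') * star u) y,
        T.n2_tri (u * c (max N N') * star u) (c (max N N')) y]) (T.n2_nonneg _))
    rw [sub_eq_zero] at h0
    calc y * u = u * y * star u * u := by rw [h0]
      _ = u * y := by rw [mul_assoc, Unitary.star_mul_self_of_mem hu.2, mul_one])
  have hs' : s = T.τ x := by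
    rw [← sub_eq_zero, ← norm_le_zero_iff]
    refine le_of_forall_pos_le_add fun δ hδ => ?_
    obtain ⟨N, hN⟩ := hy δ hδ
    have := (T.norm_τ_le_n2 _).trans (hN N le_rfl)
    rw [map_sub, (hC1 _ (hc1 N)).2, hs, map_smul, T.one, smul_eq_mul, mul_one, norm_sub_rev] at this
    linarith
  obtain ⟨N, hN⟩ := hy ε hε
  obtain ⟨ι, _, _, w, hw, e⟩ := hc1 N
  exact ⟨ι, inferInstance, inferInstance, w, hw, by rw [← e, ← hs', ← hs]; exact hN N le_rfl⟩

theorem dix_fin (hP : IsClosed (P : Set A)) (hc : T.Comp) (hf : T.Faith)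
    (hirr : ∀ x : A, (∀ y ∈ P, x * y = y * x) → ∃ c : ℂ, x = c • 1) (F : Finset A) {ε : ℝ}
    (hε : 0 < ε) :
    ∃ (ι : Type) (_ : Fintype ι) (_ : Nonempty ι) (w : ι → A), (∀ i, UP P (w i)) ∧
      ∀ x ∈ F, T.n2 (av (fun i => w i * x * star (w i)) - T.τ x • 1) ≤ ε := by
  classical
  induction F using Finset.induction_on with
  | empty => exact ⟨Unit, inferInstance, inferInstance, fun _ => 1,
      fun _ => ⟨one_mem _, one_mem _⟩, by simp⟩
  | insert x F _ ih =>
    obtain ⟨ι, _, _, w, hw, h⟩ := ih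
    obtain ⟨κ, _, _, w', hw', h'⟩ := T.dix_one hP hc hf hirr (av fun i => w i * x * star (w i)) hε
    refine ⟨κ × ι, inferInstance, inferInstance, fun p => w' p.1 * w p.2,
      fun p => (hw' _).mul (hw _), fun z hz => ?_⟩
    have e : av (fun p : κ × ι => w' p.1 * w p.2 * z * star (w' p.1 * w p.2)) =
        av fun k => w' k * (av fun i => w i * z * star (w i)) * star (w' k) := by
      rw [av_prod]; simp only [mul_av, av_mul, star_mul, mul_assoc]
    rw [e]
    rcases Finset.mem_insert.1 hz with rfl | hz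
    · simpa only [τ_av, T.τ_conj (hw _).2, av_const] using h'
    · exact T.n2_av_conj (fun k => (hw' k).2) (h z hz)

/-- The averaging property that is used. -/
def Dix (P : StarSubalgebra ℂ A) : Prop := ∀ (F : Finset A) (ε : ℝ), 0 < ε →
  ∃ (ι : Type) (_ : Fintype ι) (_ : Nonempty ι) (w : ι → A), (∀ i, UP P (w i)) ∧
    (∀ x ∈ F, T.n2 (av (fun i => w i * x * star (w i)) - T.τ x • 1) ≤ ε ∧
      T.n2 (av (fun i => star (w i) * x * w i) - T.τ x • 1) ≤ ε) ∧
    ∀ x, av (fun i => w i * x * w i) = 0 ∧ av (fun i => star (w i) * x * star (w i)) = 0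

theorem dix (hP : IsClosed (P : Set A)) (hc : T.Comp) (hf : T.Faith)
    (hirr : ∀ x : A, (∀ y ∈ P, x * y = y * x) → ∃ c : ℂ, x = c • 1) : T.Dix P := by
  intro F ε hε
  obtain ⟨ι, _, _, w, hw, h⟩ := T.dix_fin hP hc hf hirr F hε
  let ph : Bool → ℂ := fun b => if b then 1 else Complex.I
  have hph : ∀ b, ph b * star (ph b) = 1 := fun b => by cases b <;> simp [ph]
  have hph' : ∀ b, star (ph b) * ph b = 1 := fun b => by rw [mul_comm, hph]
  refine ⟨(ι × ι) × Bool, inferInstance, inferInstance,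
    fun p => ph p.2 • (star (w p.1.1) * w p.1.2), fun p => ?_, fun x hx => ⟨?_, ?_⟩,
    fun x => ⟨?_, ?_⟩⟩
  · have h1 := (hw p.1.1).star.mul (hw p.1.2)
    refine ⟨SMulMemClass.smul_mem _ h1.1, ?_, ?_⟩
    · rw [star_smul, smul_mul_smul_comm, hph', h1.2.1, one_smul]
    · rw [star_smul, smul_mul_smul_comm, hph, h1.2.2, one_smul]
  · have e : av (fun p : (ι × ι) × Bool => ph p.2 • (star (w p.1.1) * w p.1.2) * x *
        star (ph p.2 • (star (w p.1.1) * w p.1.2))) =
        av fun k => star (w k) * (av fun i => w i * x * star (w i)) * star (star (w k)) := by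
      simp only [star_smul, smul_mul_assoc, mul_smul_comm, smul_smul, hph', one_smul]
      rw [av_prod]
      simp only [av_const]
      rw [av_prod]; simp only [mul_av, av_mul, star_mul, mul_assoc]
    rw [e]
    exact T.n2_av_conj (fun k => (hw k).star.2) (h x hx)
  · have e : av (fun p : (ι × ι) × Bool => star (ph p.2 • (star (w p.1.1) * w p.1.2)) * x *
        (ph p.2 • (star (w p.1.1) * w p.1.2))) =
        av fun k => star (w k) * (av fun i => w i * x * star (w i)) * star (star (w k)) := by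
      simp only [star_smul, smul_mul_assoc, mul_smul_comm, smul_smul, hph, one_smul]
      rw [av_prod]
      simp only [av_const]
      rw [av_prod, av_comm]; simp only [mul_av, av_mul, star_mul, star_star, mul_assoc]
    rw [e]
    exact T.n2_av_conj (fun k => (hw k).star.2) (h x hx)
  · rw [av_prod]
    simp [av_bool, ph, smul_smul, av_zero]
  · rw [av_prod]
    simp [av_bool, ph, smul_smul, av_zero]

/-- Random unitaries of `P` almost orthogonal to everything. -/
def Sym (P : StarSubalgebra ℂ A) : Prop := ∀ ρ : ℝ, 0 < ρ →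
  ∃ (ι : Type) (_ : Fintype ι) (_ : Nonempty ι) (a : ι → A), (∀ i, UP P (a i)) ∧
    ∀ z : A, ‖z‖ ≤ 1 → av (fun i => ‖T.τ (z * a i)‖ ^ 2) ≤ ρ

theorem sym_of_partition (h : ∀ ρ : ℝ, 0 < ρ → ∃ (ι : Type) (_ : Fintype ι) (p : ι → A),
    (∀ i, p i ∈ P ∧ IsStarProjection (p i) ∧ (T.τ (p i)).re ≤ ρ) ∧
    (∀ i j, i ≠ j → p i * p j = 0) ∧ ∑ i, p i = 1) : T.Sym P := by
  classical
  intro ρ hρ
  obtain ⟨ι, _, p, h1, h2, h3⟩ := h ρ hρ
  have hsq : ∀ ε : ι → Bool, (∑ i, sg (ε i) • p i) * (∑ i, sg (ε i) • p i) = 1 := fun ε => by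
    rw [Finset.sum_mul_sum, ← h3]
    refine Finset.sum_congr rfl fun i _ => ?_
    rw [Finset.sum_eq_single i]
    · rw [smul_mul_smul_comm, sg_mul_self, one_smul, (h1 i).2.1.isIdempotentElem.eq]
    · intro j _ hj; rw [smul_mul_smul_comm, h2 i j hj.symm, smul_zero]
    · simp
  have hst : ∀ ε : ι → Bool, star (∑ i, sg (ε i) • p i) = ∑ i, sg (ε i) • p i := fun ε => by
    simp only [star_sum, star_smul, star_sg, (h1 _).2.1.isSelfAdjoint.star_eq]
  refine ⟨ι → Bool, inferInstance, inferInstance, fun ε => ∑ i, sg (ε i) • p i, fun ε =>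
    ⟨sum_mem fun i _ => SMulMemClass.smul_mem _ (h1 i).1, ?_, ?_⟩, fun z hz => ?_⟩
  · rw [hst, hsq]
  · rw [hst, hsq]
  have := chaos1 (fun i => T.τ (z * p i)) Finset.univ 0
  simp only [zero_add, norm_zero, ne_eq, OfNat.ofNat_ne_zero, not_false_eq_true, zero_pow] at this
  simp only [Finset.mul_sum, mul_smul_comm, map_sum, map_smul, this]
  have h4 : ∑ i, (T.τ (p i)).re = 1 := by
    rw [← Complex.re_sum, ← map_sum, h3, T.one, Complex.one_re]
  calc _ ≤ ∑ i, (T.τ (p i)).re * ρ := Finset.sum_le_sum fun i _ => by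
        have a1 := T.cs (z * p i) (p i)
        rw [mul_assoc, (h1 i).2.1.isIdempotentElem.eq] at a1
        have a2 : T.n2 (z * p i) ≤ T.n2 (p i) :=
          (T.n2_mul_le _ _).trans (mul_le_of_le_one_left (T.n2_nonneg _) hz)
        have a3 := a1.trans (mul_le_mul_of_nonneg_right a2 (T.n2_nonneg _))
        rw [← sq, T.n2_proj_sq (h1 i).2.1] at a3
        rw [sq]
        exact mul_le_mul a3 (a3.trans (h1 i).2.2) (norm_nonneg _) ((norm_nonneg _).trans a3)
    _ = ρ := by rw [← Finset.sum_mul, h4, one_mul]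

end TS

end Crest.Agent.R95
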