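import Crest.Agent.R95.Proj

/-! Row 95, task B: a two-generated irreducible subalgebra. -/

set_option autoImplicit false
set_option linter.unusedSectionVars false

open scoped InnerProductSpace ComplexOrder
open Crest.OpAlg Crest.Agent.R124

namespace Crest.Agent.R95

variable {H : Type*} [NormedAddCommGroup H] [InnerProductSpace ℂ H] [CompleteSpace H]
variable {ξ : ℕ → H} {M : VonNeumannAlgebra H}

/-- Separation of a projection from a small commuting perturbation. -/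
theorem sep_proj (N : VonNeumannAlgebra H) {e t : H →L[ℂ] H} (he : IsStarProjection e)
    (het : e * t = t * e) (ht : ‖t‖ < 1 / 2) (h : e + t ∈ N) : e ∈ N := by
  have key : ∀ b ∈ N.commutant, e * b * (1 - e) = 0 := fun b hb => by
    have h1 := comm_of_mem h hb
    have h2 : t * (1 - e) = (1 - e) * t := by rw [mul_sub, sub_mul, het, mul_one, one_mul]
    have h3 : e * b * (1 - e) = e * b * (1 - e) * t - t * (e * b * (1 - e)) := by
      have := congrArg (fun x => e * x * (1 - e)) h1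
      simp only [mul_add, add_mul, mul_assoc, he.mul_one_sub_self, mul_zero, zero_add, h2] at this
      rw [← mul_assoc e e, he.isIdempotentElem.eq, ← mul_assoc e t, het] at this
      simp only [mul_assoc] at this ⊢
      rw [this]; abel
    have h4 : ‖e * b * (1 - e)‖ ≤ ‖e * b * (1 - e)‖ * ‖t‖ + ‖t‖ * ‖e * b * (1 - e)‖ := by
      conv_lhs => rw [h3]
      exact (norm_sub_le _ _).trans (add_le_add (norm_mul_le _ _) (norm_mul_le _ _))
    exact norm_le_zero_iff.1 (by nlinarith [norm_nonneg (e * b * (1 - e))])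
  refine mem_of_comm N fun b hb => comm_of_inv he ?_ ?_
  · simpa [he.isSelfAdjoint.star_eq, mul_assoc] using congrArg star (key _ (star_mem hb))
  · simpa [he.isSelfAdjoint.star_eq, mul_assoc] using congrArg star (key _ hb)

theorem _root_.Crest.Agent.R124.Ty.proj_le' {p q : H →L[ℂ] H} (hp : IsStarProjection p)
    (hq : IsStarProjection q) (h : p * q = p) : q * p = p := by
  simpa [hp.isSelfAdjoint.star_eq, hq.isSelfAdjoint.star_eq] using congrArg star h

namespace B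

theorem tr_le_of_le (hξ : IsFaithfulTracialVectorState M ξ) {e f : H →L[ℂ] H}
    (he : IsStarProjection e) (hf : IsStarProjection f) (h : f * e = e) : tr ξ e ≤ tr ξ f := by
  have := tr_proj_nonneg (ξ := ξ) (he.sub_of_mul_eq_right hf h)
  rw [tr_sub hξ] at this
  linarith

theorem tr_le_of_pi (hξ : IsFaithfulTracialVectorState M ξ) {v f : H →L[ℂ] H} (hvM : v ∈ M)
    (hv : PI v) (hf : IsStarProjection f) (h : f * v = v) : tr ξ (star v * v) ≤ tr ξ f := by
  rw [tr_comm hξ (star_mem hvM) hvM]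
  exact tr_le_of_le hξ hv.fin hf (by rw [← mul_assoc, h])

theorem eq_of_tr (hξ : IsFaithfulTracialVectorState M ξ) {e f : H →L[ℂ] H}
    (he : IsStarProjection e) (heM : e ∈ M) (hf : IsStarProjection f) (hfM : f ∈ M)
    (h : f * e = e) (ht : tr ξ f ≤ tr ξ e) : e = f := by
  by_contra hne
  have := tr_proj_pos hξ (he.sub_of_mul_eq_right hf h) (sub_mem hfM heM)
    fun h0 => hne (sub_eq_zero.1 h0).symm
  rw [tr_sub hξ] at this
  linarith

theorem sub_of_tr (hξ : IsFaithfulTracialVectorState M ξ) (hM : IsFactor M) {e f : H →L[ℂ] H}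
    (he : IsStarProjection e) (heM : e ∈ M) (hf : IsStarProjection f) (hfM : f ∈ M)
    (ht : tr ξ e ≤ tr ξ f) : Sub M e f := by
  rcases sub_total hM he heM hf hfM with h | ⟨v, hvM, h1, h2⟩
  · exact h
  have hv : PI v := pi_of_init (h1.symm ▸ hf)
  have := eq_of_tr hξ hv.fin (mul_mem hvM (star_mem hvM)) he heM (by rw [← mul_assoc, h2])
    (by rwa [tr_comm hξ hvM (star_mem hvM), h1])
  exact ⟨star v, star_mem hvM, by rwa [star_star], h1 ▸ hv.init_mul⟩

/-- Polar part above the level `t`. -/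
theorem cut {g : H →L[ℂ] H} (hg : g ∈ M) {t : ℝ} (ht : 0 < t) :
    ∃ f ∈ M, ∃ c ∈ M, IsStarProjection f ∧ star (g * c * f) * (g * c * f) = f ∧ c * f = f * c ∧
      ‖g * (1 - f)‖ ≤ √t ∧ ∀ p, IsStarProjection p → g * p = g → f * p = f := by
  have ha : IsSelfAdjoint (star g * g) := IsSelfAdjoint.star_mul_self g
  have haP : star g * g ∈ M := mul_mem (star_mem hg) hg
  have h1 := polar_init g ht
  have hq := sp_proj (star g * g) t
  have h6 : star (g * cfc (fun s : ℝ => (√(max s t))⁻¹) (star g * g) * sp (star g * g) t) *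
      (g * cfc (fun s : ℝ => (√(max s t))⁻¹) (star g * g) * sp (star g * g) t) =
      sp (star g * g) t := by
    rw [star_mul (g * _), hq.isSelfAdjoint.star_eq, mul_assoc (sp _ _),
      ← mul_assoc (star (g * _)), h1, hq.isIdempotentElem.eq]
  refine ⟨_, sp_mem ha haP t, _, cfc_mem _ haP, hq, h6, cfc_sp_comm ha _ _, ?_, fun p hp h => ?_⟩
  · have h2 := mul_one_sub_sp_le ha t
    have h3 : star (g * (1 - sp (star g * g) t)) * (g * (1 - sp (star g * g) t)) =
        star g * g * (1 - sp (star g * g) t) := by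
      have hc : (1 - sp (star g * g) t) * (star g * g) = star g * g * (1 - sp (star g * g) t) := by
        rw [sub_mul, mul_sub, sp_comm ha rfl, one_mul, mul_one]
      rw [star_mul, hq.one_sub.isSelfAdjoint.star_eq, mul_assoc, ← mul_assoc (star g), ← mul_assoc,
        hc, mul_assoc, hq.one_sub.isIdempotentElem.eq]
    have h4 : t • (1 - sp (star g * g) t) ≤ t • (1 : H →L[ℂ] H) :=
      smul_le_smul_of_nonneg_left hq.one_sub.le_one ht.le
    have h5 := h2.trans h4
    rw [← h3, ← Algebra.algebraMap_eq_smul_one,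
      ← CStarAlgebra.norm_le_iff_le_algebraMap _ ht.le (star_mul_self_nonneg _),
      CStarRing.norm_star_mul_self] at h5
    exact Real.le_sqrt_of_sq_le (by rwa [sq])
  · have hea : p * (star g * g) = star g * g * p := by
      rw [← mul_assoc, proj_mul_star hp h, mul_assoc, h]
    have hv : g * cfc (fun s : ℝ => (√(max s t))⁻¹) (star g * g) * sp (star g * g) t * p =
        g * cfc (fun s : ℝ => (√(max s t))⁻¹) (star g * g) * sp (star g * g) t := by
      rw [mul_assoc _ _ p, ← sp_comm ha hea, ← mul_assoc, mul_assoc g, ← cfc_comm hea,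
        ← mul_assoc, h]
    exact (congrArg (· * p) h6.symm).trans (by rw [mul_assoc, hv, h6])

theorem tr_le_of_inv (hξ : IsFaithfulTracialVectorState M ξ) {z g p r : H →L[ℂ] H} (hg : g ∈ M)
    (hp : IsStarProjection p) (hr : IsStarProjection r) (h1 : r * g = g)
    (h2 : g * p = g) (h : ‖z * g - p‖ ≤ 1 / 2) : tr ξ p ≤ tr ξ r := by
  obtain ⟨f, hf, c, hc, f1, f2, -, f4, f5⟩ := cut hg
    (show 0 < (1 / (4 * (‖z‖ + 1))) ^ 2 by positivity)
  rw [Real.sqrt_sq (by positivity)] at f4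
  have f6 := f5 p hp h2
  have f7 := tr_le_of_pi hξ (mul_mem (mul_mem hg hc) hf) (pi_of_init (f2.symm ▸ f1)) hr
    (by rw [← mul_assoc, ← mul_assoc, h1])
  rw [f2] at f7
  have hp' := f1.sub_of_mul_eq_left hp f6
  have e1 : p - f = z * (g * (1 - f)) - (z * g - p) * (p - f) := by
    rw [sub_mul, mul_assoc, mul_sub g, mul_sub g, h2, mul_one, mul_sub p, hp.isIdempotentElem.eq,
      Ty.proj_le' f1 hp f6]
    abel
  have e2 : ‖p - f‖ ≤ 3 / 4 := by
    conv_lhs => rw [e1]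
    refine (norm_sub_le _ _).trans ?_
    have a1 := (norm_mul_le _ _).trans (mul_le_mul h hp'.norm_le (norm_nonneg _) (by norm_num))
    have a2 : ‖z * (g * (1 - f))‖ ≤ 1 / 4 :=
      calc _ ≤ ‖z‖ * ‖g * (1 - f)‖ := norm_mul_le _ _
        _ ≤ (‖z‖ + 1) * (1 / (4 * (‖z‖ + 1))) := by gcongr; linarith
        _ = 1 / 4 := by field_simp
    linarith
  have e3 : ‖p - f‖ * ‖p - f‖ = ‖p - f‖ := by
    rw [← CStarRing.norm_star_mul_self, hp'.isSelfAdjoint.star_eq, hp'.isIdempotentElem.eq]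
  have e4 : p - f = 0 := norm_le_zero_iff.1 (by nlinarith [norm_nonneg (p - f)])
  rwa [sub_eq_zero.1 e4]

theorem exists_inv (hξ : IsFaithfulTracialVectorState M ξ) (hM : IsFactor M) {e X : H →L[ℂ] H}
    (he : IsStarProjection e) (heM : e ∈ M) (hX : X ∈ M) (h1 : e * X = X) (h2 : X * e = X)
    {ε : ℝ} (hε : 0 < ε) :
    ∃ D ∈ M, ∃ y ∈ M, D * e = D ∧ e * D = D ∧ ‖D‖ ≤ ε ∧ (X + D) * y = e := by
  obtain ⟨f, hf, c, hc, f1, f2, f3, f4, f5⟩ := cut hX (show 0 < (ε / 2) ^ 2 by positivity)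
  rw [Real.sqrt_sq (by positivity)] at f4
  have f6 := f5 e he h2
  obtain ⟨v, hv⟩ : ∃ v, v = X * c * f := ⟨_, rfl⟩
  rw [← hv] at f2
  have hvM : v ∈ M := hv ▸ mul_mem (mul_mem hX hc) hf
  have v0 : PI v := pi_of_init (f2.symm ▸ f1)
  have v1 : e * v = v := by rw [hv, ← mul_assoc, ← mul_assoc, h1]
  have p1 := f1.sub_of_mul_eq_left he f6
  have p2 := v0.fin.sub_of_mul_eq_right he (by rw [← mul_assoc, v1])
  have m1 := sub_mem heM hf
  have m2 := sub_mem heM (mul_mem hvM (star_mem hvM))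
  have t1 : tr ξ (e - f) = tr ξ (e - v * star v) := by
    rw [tr_sub hξ, tr_sub hξ, tr_comm hξ hvM (star_mem hvM), f2]
  obtain ⟨u, huM, u1, u2⟩ := sub_of_tr hξ hM p1 m1 p2 m2 t1.le
  have u0 : PI u := pi_of_init (u1.symm ▸ p1)
  have u3 := eq_of_tr hξ u0.fin (mul_mem huM (star_mem huM)) p2 m2 (by rw [← mul_assoc, u2])
    (by rw [tr_comm hξ huM (star_mem huM), u1, t1])
  have u4 : u * (e - f) = u := u1 ▸ u0.mul_init
  have ef := Ty.proj_le' f1 he f6
  have u5 : u * f = 0 := by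
    rw [← u4, mul_assoc, sub_mul, ef, f1.isIdempotentElem.eq, sub_self, mul_zero]
  have u6 : f * star u = 0 := by simpa [f1.isSelfAdjoint.star_eq] using congrArg star u5
  refine ⟨(ε / 2) • u - X * (1 - f), sub_mem (rsmul_mem _ huM) (mul_mem hX (sub_mem (one_mem M) hf)),
    f * c * star v + (ε / 2)⁻¹ • star u, add_mem (mul_mem (mul_mem hf hc) (star_mem hvM))
      (rsmul_mem _ (star_mem huM)), ?_, ?_, ?_, ?_⟩
  · rw [sub_mul, smul_mul_assoc, mul_assoc, sub_mul, one_mul, f6, mul_sub, mul_sub, h2, mul_one,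
      ← u4, mul_assoc, sub_mul, he.isIdempotentElem.eq, f6]
  · rw [mul_sub, mul_smul_comm, ← mul_assoc, h1, ← u2, ← mul_assoc, mul_sub,
      he.isIdempotentElem.eq, ← mul_assoc, v1]
  · refine (norm_sub_le _ _).trans ?_
    rw [norm_smul, Real.norm_of_nonneg (by positivity)]
    nlinarith [u0.norm_le]
  · have e1 : X + ((ε / 2) • u - X * (1 - f)) = X * f + (ε / 2) • u := by
      rw [mul_sub, mul_one]; abel
    have e2 : X * f * (f * c * star v) = v * star v := by
      rw [← mul_assoc, ← mul_assoc, mul_assoc X, f1.isIdempotentElem.eq, mul_assoc X, ← f3,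
        ← mul_assoc, ← hv]
    have e3 : u * (f * c * star v) = 0 := by rw [← mul_assoc, ← mul_assoc, u5]; simp
    rw [e1, add_mul, mul_add, mul_add, e2, smul_mul_assoc, e3, mul_smul_comm, mul_assoc, u6,
      smul_mul_smul_comm, mul_inv_cancel₀ (by positivity), u3]
    simp

theorem re_mem {N : VonNeumannAlgebra H} {x : H →L[ℂ] H} (hx : x ∈ N) :
    ((realPart x : selfAdjoint _) : H →L[ℂ] H) ∈ N := by
  rw [realPart_apply_coe]; exact rsmul_mem _ (add_mem hx (star_mem hx))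

theorem im_mem {N : VonNeumannAlgebra H} {x : H →L[ℂ] H} (hx : x ∈ N) :
    ((imaginaryPart x : selfAdjoint _) : H →L[ℂ] H) ∈ N := by
  rw [imaginaryPart_apply_coe]; exact csmul_mem _ (rsmul_mem _ (sub_mem hx (star_mem hx)))

theorem le_of_proj {A N : VonNeumannAlgebra H} (h : ∀ q ∈ A, IsStarProjection q → q ∈ N) :
    A ≤ N := by
  have k2 : ∀ x ∈ A, IsSelfAdjoint x → x ∈ N := fun x hx x1 => by
    refine (isClosed_vn N).closure_subset (Metric.mem_closure_iff.2 fun ε hε => ?_)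
    obtain ⟨n, c, t, c₀, h1⟩ := exists_step x1 (half_pos hε)
    have hm : c₀ • (1 : H →L[ℂ] H) + ∑ i, c i • sp x (t i) ∈ N :=
      add_mem (rsmul_mem c₀ (one_mem N)) (sum_mem fun i _ => rsmul_mem (c i)
        (h _ (sp_mem x1 hx (t i)) (sp_proj _ _)))
    exact ⟨_, hm, by rw [dist_eq_norm]; linarith⟩
  intro x hx
  rw [← realPart_add_I_smul_imaginaryPart x]
  exact add_mem (k2 _ (re_mem hx) (realPart x).2) (csmul_mem _ (k2 _ (im_mem hx) (imaginaryPart x).2))

/-- Relative commutant. -/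
noncomputable def rc (M : VonNeumannAlgebra H) (S : Set (H →L[ℂ] H)) : VonNeumannAlgebra H :=
  vnOf (S ∪ M.commutant)

theorem mem_rc {S : Set (H →L[ℂ] H)} (hS : ∀ s ∈ S, star s ∈ S) {x : H →L[ℂ] H} :
    x ∈ rc M S ↔ x ∈ M ∧ ∀ s ∈ S, x * s = s * x := by
  rw [rc, mem_vnOf]
  refine ⟨fun h => ⟨mem_of_comm M fun b hb => (h b (Or.inr hb)).1,
    fun s hs => (h s (Or.inl hs)).1.symm⟩, fun h b hb => ?_⟩
  rcases hb with hb | hb
  · exact ⟨(h.2 b hb).symm, (h.2 _ (hS b hb)).symm⟩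
  · exact ⟨comm_of_mem h.1 hb, comm_of_mem h.1 (star_mem hb)⟩

theorem exists_masa (M : VonNeumannAlgebra H) : ∃ A : VonNeumannAlgebra H,
    ∀ x, x ∈ A ↔ x ∈ M ∧ ∀ y ∈ A, x * y = y * x := by
  obtain ⟨S, ⟨h1, h2⟩, h3⟩ := zorn_subset
    {S : Set (H →L[ℂ] H) | (∀ s ∈ S, s ∈ M ∧ star s = s) ∧ S.Pairwise fun a b => a * b = b * a}
    fun c hc hch => ⟨⋃₀ c, ⟨fun s ⟨t, ht, hs⟩ => (hc ht).1 s hs,
      hch.pairwise_sUnion.2 fun s hs => (hc hs).2⟩, fun s hs => Set.subset_sUnion_of_mem hs⟩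
  have hS : ∀ s ∈ S, star s ∈ S := fun s hs => by rwa [(h1 s hs).2]
  have h4 : ∀ s ∈ S, s ∈ rc M S := fun s hs => (mem_rc hS).2 ⟨(h1 s hs).1, fun t ht => by
    rcases eq_or_ne s t with rfl | h
    · rfl
    · exact h2 hs ht h⟩
  have h5 : ∀ x ∈ rc M S, IsSelfAdjoint x → x ∈ S := fun x hx hs => by
    rw [mem_rc hS] at hx
    refine h3 ⟨?_, h2.insert fun b hb _ => ⟨hx.2 b hb, (hx.2 b hb).symm⟩⟩ (Set.subset_insert x S)
      (Set.mem_insert _ _)
    rintro s (rfl | hs')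
    · exact ⟨hx.1, hs.star_eq⟩
    · exact h1 s hs'
  refine ⟨rc M S, fun x => ⟨fun hx => ⟨((mem_rc hS).1 hx).1, fun y hy => ?_⟩,
    fun hx => (mem_rc hS).2 ⟨hx.1, fun s hs => hx.2 s (h4 s hs)⟩⟩⟩
  have a1 := ((mem_rc hS).1 hx).2 _ (h5 _ (re_mem hy) (realPart y).2)
  have a2 := ((mem_rc hS).1 hx).2 _ (h5 _ (im_mem hy) (imaginaryPart y).2)
  rw [← realPart_add_I_smul_imaginaryPart y, mul_add, add_mul, mul_smul_comm, smul_mul_assoc, a1, a2]

theorem small (hξ : IsFaithfulTracialVectorState M ξ) {A : VonNeumannAlgebra H} (hm : NoMin A)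
    {ρ : ℝ} (hρ : 0 < ρ) : ∃ q ∈ A, IsStarProjection q ∧ q ≠ 0 ∧ tr ξ q < ρ := by
  have key : ∀ k : ℕ, ∃ q ∈ A, IsStarProjection q ∧ q ≠ 0 ∧ tr ξ q ≤ (1 / 2) ^ k := fun k => by
    induction k with
    | zero => exact ⟨1, one_mem A, IsStarProjection.one _, fun h => by
        have := tr_one hξ; rw [h, tr_zero hξ] at this; exact zero_ne_one this,
        by simp [tr_one hξ]⟩
    | succ k ih =>
      obtain ⟨q, h1, h2, h3, h4⟩ := ih
      obtain ⟨f, f1, f2, f3, f4, f5⟩ := hm q h1 h2 h3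
      rcases le_total (tr ξ f) ((1 / 2) ^ (k + 1)) with h | h
      · exact ⟨f, f1, f2, f4, h⟩
      · refine ⟨q - f, sub_mem h1 f1, f2.sub_of_mul_eq_right h2 f3,
          fun h0 => f5 (sub_eq_zero.1 h0).symm, ?_⟩
        rw [tr_sub hξ]; rw [pow_succ] at h ⊢; linarith
  obtain ⟨k, hk⟩ := exists_pow_lt_of_lt_one hρ (show (1 / 2 : ℝ) < 1 by norm_num)
  obtain ⟨q, h1, h2, h3, h4⟩ := key k
  exact ⟨q, h1, h2, h3, h4.trans_lt hk⟩

theorem exists_gen {A : VonNeumannAlgebra H} (hA : ∀ x ∈ A, ∀ y ∈ A, x * y = y * x)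
    (e : ℕ → H →L[ℂ] H) (he : ∀ n, e n ∈ A ∧ IsStarProjection (e n)) :
    ∃ a ∈ A, IsSelfAdjoint a ∧ ∀ N : VonNeumannAlgebra H, a ∈ N → ∀ n, e n ∈ N := by
  have hb : ∀ n k, ‖((1 / 4 : ℝ) ^ k) • e (k + n)‖ ≤ (1 / 4 : ℝ) ^ k := fun n k => by
    rw [norm_smul, Real.norm_of_nonneg (by positivity)]
    exact mul_le_of_le_one_right (by positivity) (he _).2.norm_le
  have hg := hasSum_geometric_of_lt_one (show (0 : ℝ) ≤ 1 / 4 by norm_num) (by norm_num)
  have hs : ∀ n, Summable fun k => ((1 / 4 : ℝ) ^ k) • e (k + n) := fun n =>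
    Summable.of_norm_bounded hg.summable (hb n)
  obtain ⟨a, ha⟩ : ∃ a : ℕ → H →L[ℂ] H, ∀ n, a n = ∑' k, ((1 / 4 : ℝ) ^ k) • e (k + n) :=
    ⟨_, fun _ => rfl⟩
  have a1 : ∀ n, a n ∈ A := fun n => by
    rw [ha]
    exact (isClosed_vn A).mem_of_tendsto (hs n).hasSum (Filter.Eventually.of_forall fun F =>
      sum_mem fun k _ => rsmul_mem _ (he _).1)
  have a2 : ∀ n, ‖a n‖ ≤ 4 / 3 := fun n => by
    rw [ha]
    exact (tsum_of_norm_bounded hg (hb n)).trans (by norm_num)
  have a3 : ∀ n, a n = e n + (1 / 4 : ℝ) • a (n + 1) := fun n => by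
    rw [ha, ha, (hs n).tsum_eq_zero_add, ← (hs (n + 1)).tsum_const_smul]
    simp only [pow_zero, one_smul, zero_add, smul_smul, pow_succ', add_assoc, add_comm 1 n]
  refine ⟨a 0, a1 0, ?_, fun N hN => ?_⟩
  · rw [ha, IsSelfAdjoint, tsum_star]
    simp only [star_smul, star_trivial, (he _).2.isSelfAdjoint.star_eq]
  have k1 : ∀ n, a n ∈ N → e n ∈ N := fun n h => sep_proj N (he n).2
    (hA _ (he n).1 _ (rsmul_mem (1 / 4 : ℝ) (a1 (n + 1)))) (by
      rw [norm_smul, Real.norm_of_nonneg (by positivity)]; linarith [a2 (n + 1)]) (a3 n ▸ h)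
  have k2 : ∀ n, a n ∈ N := fun n => by
    induction n with
    | zero => exact hN
    | succ n ih =>
      have : a (n + 1) = (4 : ℝ) • (a n - e n) := by rw [a3 n]; module
      rw [this]
      exact rsmul_mem _ (sub_mem ih (k1 n ih))
  exact fun n => k1 n (k2 n)

theorem exists_h (hξ : IsFaithfulTracialVectorState M ξ) (hM : IsFactor M)
    (e : ℕ → H →L[ℂ] H) (he : ∀ n, e n ∈ M ∧ IsStarProjection (e n) ∧ tr ξ (e n) ≤ 1 / 2) :
    ∃ h ∈ M, IsSelfAdjoint h ∧ ∀ n, ∃ y ∈ M, ‖e n * h * (1 - e n) * y - e n‖ < 1 / 2 := by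
  let X : Set (H →L[ℂ] H) := {h | h ∈ M ∧ star h = h}
  have hX : IsClosed X := (isClosed_vn M).inter (isClosed_eq continuous_star continuous_id)
  have := hX.completeSpace_coe
  have : Nonempty X := ⟨⟨0, zero_mem M, star_zero _⟩⟩
  have := dense_iInter_of_isOpen_nat
    (f := fun n => {h : X | ∃ y ∈ M, ‖e n * h * (1 - e n) * y - e n‖ < 1 / 2})
    (fun n => by
      simp only [Set.ofPred_exists, Set.ofPred_and]
      refine isOpen_iUnion fun y => IsOpen.inter isOpen_const (isOpen_lt (by fun_prop) (by fun_prop)))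
    fun n => Metric.dense_iff.2 fun h ε hε => by
      obtain ⟨e1, e2, e3⟩ := he n
      obtain ⟨w, hw, w1, w2⟩ := sub_of_tr hξ hM e2 e1 e2.one_sub (sub_mem (one_mem M) e1)
        (by rw [tr_sub hξ, tr_one hξ]; linarith)
      have w0 : PI w := pi_of_init (w1.symm ▸ e2)
      have w3 : w * e n = w := w1 ▸ w0.mul_init
      have w4 : e n * w = 0 := by rw [← w2, ← mul_assoc, e2.mul_one_sub_self, zero_mul]
      obtain ⟨D, hD, y, hy, d1, d2, d3, d4⟩ := exists_inv hξ hM e2 e1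
        (mul_mem (mul_mem e1 h.2.1) hw) (by rw [← mul_assoc, ← mul_assoc, e2.isIdempotentElem.eq])
        (by rw [mul_assoc, w3]) (show 0 < ε / 4 by positivity)
      refine ⟨⟨h + (D * star w + w * star D), add_mem h.2.1 (add_mem (mul_mem hD (star_mem hw))
        (mul_mem hw (star_mem hD))), by simp [h.2.2, add_comm]⟩, ?_, w * y, mul_mem hw hy, ?_⟩
      · rw [Metric.mem_ball, Subtype.dist_eq, dist_eq_norm, add_sub_cancel_left]
        refine (norm_add_le _ _).trans_lt ?_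
        have a1 := norm_mul_le D (star w)
        have a2 := norm_mul_le w (star D)
        rw [norm_star] at a1 a2
        nlinarith [w0.norm_le, norm_nonneg D, norm_nonneg w]
      · have : e n * (h + (D * star w + w * star D)) * (1 - e n) * (w * y) = e n := by
          rw [mul_assoc, ← mul_assoc (1 - e n), w2, ← mul_assoc, mul_add, mul_add, ← mul_assoc,
            ← mul_assoc, d2, w4, zero_mul, add_zero, add_mul, mul_assoc D, w1, d1, d4]
        simp only [this, sub_self, norm_zero]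
        norm_num
  obtain ⟨h, hh⟩ := this.nonempty
  exact ⟨h, h.2.1, h.2.2, fun n => Set.mem_iInter.1 hh n⟩

end B

/-- An irreducible subalgebra without minimal projections generated by two self-adjoint
elements. -/
theorem exists_irr [TopologicalSpace.SeparableSpace H] (hξ : IsFaithfulTracialVectorState M ξ)
    (hM : IsFactor M) (hm : NoMin M) :
    ∃ P : VonNeumannAlgebra H, P ≤ M ∧ NoMin P ∧
      (∀ x ∈ M, (∀ y ∈ P, x * y = y * x) → ∃ c : ℂ, x = c • (1 : H →L[ℂ] H)) ∧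
      ∃ a ∈ M, ∃ h ∈ M, IsSelfAdjoint a ∧ IsSelfAdjoint h ∧
        ∀ N : VonNeumannAlgebra H, a ∈ N → h ∈ N → P ≤ N := by
  obtain ⟨A, hA⟩ := B.exists_masa M
  have hAM : A ≤ M := fun x hx => ((hA x).1 hx).1
  have hAc : ∀ x ∈ A, ∀ y ∈ A, x * y = y * x := fun x hx => ((hA x).1 hx).2
  have hmA : NoMin A := fun q q1 q2 q3 => by
    by_contra hn
    obtain ⟨f, f1, f2, f3, f4, f5⟩ := hm q (hAM q1) q2 q3
    refine hn ⟨f, (hA f).2 ⟨f1, fun t ht => ?_⟩, f2, f3, f4, f5⟩
    obtain ⟨c, hc⟩ := scalar_of_min q2 q1 (fun g g1 g2 g3 => by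
      by_contra h
      push Not at h
      exact hn ⟨g, g1, g2, g3, h.1, h.2⟩) (mul_mem q1 ht)
      (by rw [← mul_assoc, q2.isIdempotentElem.eq])
      (by rw [hAc q q1 t ht, mul_assoc, q2.isIdempotentElem.eq])
    have f6 := Ty.proj_le q2 f2 f3
    calc f * t = f * (q * t) := by rw [← mul_assoc, f6]
      _ = q * t * f := by rw [hc, mul_smul_comm, smul_mul_assoc, f6, f3]
      _ = t * f := by rw [hAc q q1 t ht, mul_assoc, f3]
  obtain ⟨e, he, hd⟩ := exists_dense hξ.1 {q | q ∈ A ∧ IsStarProjection q ∧ tr ξ q ≤ 1 / 2}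
    ⟨0, zero_mem A, IsStarProjection.zero _, by simp [tr_zero hξ]⟩ fun x hx => hx.2.1.norm_le
  obtain ⟨a, a1, a2, a3⟩ := B.exists_gen hAc e fun n => ⟨(he n).1, (he n).2.1⟩
  obtain ⟨h, h1, h2, h3⟩ := B.exists_h hξ hM e fun n => ⟨hAM (he n).1, (he n).2⟩
  have half : ∀ q ∈ A, IsStarProjection q → tr ξ q ≤ 1 / 2 ∨ tr ξ (1 - q) ≤ 1 / 2 :=
    fun q _ _ => by rw [tr_sub hξ, tr_one hξ]; rcases le_total (tr ξ q) (1 / 2) with h | h
                    exacts [Or.inl h, Or.inr (by linarith)]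
  have gen : ∀ N : VonNeumannAlgebra H, a ∈ N → A ≤ N := fun N hN => by
    have k : ∀ q ∈ A, IsStarProjection q → tr ξ q ≤ 1 / 2 → q ∈ N := fun q q1 q2 q3 =>
      mem_of_n2_lim hξ N (hAM q1) (C := 1) fun ε hε => by
        obtain ⟨k, hk⟩ := hd q ⟨q1, q2, q3⟩ ε hε
        exact ⟨e k, a3 N hN k, hAM (he k).1, (he k).2.1.norm_le,
          by rwa [n2_sub_comm hξ (hAM (he k).1) (hAM q1)]⟩
    refine B.le_of_proj fun q q1 q2 => ?_
    rcases half q q1 q2 with h | h
    · exact k q q1 q2 h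
    · simpa using sub_mem (one_mem N) (k _ (sub_mem (one_mem A) q1) q2.one_sub h)
  have irr0 : ∀ q ∈ A, IsStarProjection q → tr ξ q ≤ 1 / 2 → q * h = h * q → q = 0 :=
    fun q q1 q2 q3 q4 => by
      by_contra q0
      have t0 := tr_proj_pos hξ q2 (hAM q1) q0
      obtain ⟨k, hk⟩ := hd q ⟨q1, q2, q3⟩ (√(tr ξ q / 4)) (by positivity)
      obtain ⟨y, hy, h4⟩ := h3 k
      obtain ⟨e1, e2, -⟩ := he k
      generalize e k = e at *
      have c1 := hAc q q1 e e1
      have c2 : q * (1 - e) = (1 - e) * q := hAc q q1 _ (sub_mem (one_mem A) e1)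
      have p1 : IsStarProjection (q * e) := q2.mul e2 c1
      have p2 : IsStarProjection (q * (1 - e)) := q2.mul e2.one_sub c2
      have b1 := B.tr_le_of_inv hξ (z := e * h) (g := q * (1 - e) * y * (q * e))
        (mul_mem (mul_mem (hAM (mul_mem q1 (sub_mem (one_mem A) e1))) hy) (hAM (mul_mem q1 e1)))
        p1 p2 (by rw [← mul_assoc (q * (1 - e)) (_ * y), ← mul_assoc (q * (1 - e)) _ y,
          p2.isIdempotentElem.eq])
        (by rw [mul_assoc, p1.isIdempotentElem.eq]) (by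
          have : e * h * (q * (1 - e) * y * (q * e)) - q * e =
              q * (e * h * (1 - e) * y - e) * (q * e) := by
            have c3 : ∀ x, q * (e * x) = e * (q * x) := fun x => by rw [← mul_assoc, c1, mul_assoc]
            have c4 : ∀ x, q * (h * x) = h * (q * x) := fun x => by rw [← mul_assoc, q4, mul_assoc]
            rw [mul_sub q (_ * y), sub_mul, p1.isIdempotentElem.eq]
            simp only [mul_assoc, c3, c4]
          rw [this]
          calc _ ≤ ‖q‖ * ‖e * h * (1 - e) * y - e‖ * ‖q * e‖ :=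
                (norm_mul_le _ _).trans (by gcongr; exact norm_mul_le _ _)
            _ ≤ 1 * (1 / 2) * 1 := by
                gcongr
                exacts [q2.norm_le, p1.norm_le]
            _ = 1 / 2 := by norm_num)
      have b2 : n2 ξ (q * (1 - e)) ≤ √(tr ξ q / 4) := by
        have : q * (1 - e) = q * (q - e) := by rw [mul_sub, mul_sub, q2.isIdempotentElem.eq, mul_one]
        rw [this]
        refine (n2_mul_le hξ (hAM q1) (hAM (sub_mem q1 e1))).trans ?_
        nlinarith [q2.norm_le, n2_nonneg (ξ := ξ) (q - e)]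
      have b3 := pow_le_pow_left₀ (n2_nonneg _) b2 2
      rw [n2_proj_sq p2, Real.sq_sqrt (by positivity)] at b3
      rw [mul_sub, mul_one, tr_sub hξ] at b1 b3
      linarith
  have hP : ∀ N : VonNeumannAlgebra H, a ∈ N → h ∈ N → (vnOf {a, h}).commutant ≤ N :=
    fun N n1 n2 x hx => mem_of_comm N fun b hb => (comm_of_mem (mem_vnOf.2 (by
      rintro _ (rfl | rfl)
      · exact ⟨(comm_of_mem n1 hb).symm, (comm_of_mem (star_mem n1) hb).symm⟩
      · exact ⟨(comm_of_mem n2 hb).symm, (comm_of_mem (star_mem n2) hb).symm⟩)) hx).symm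
  have haP : a ∈ (vnOf {a, h}).commutant :=
    VonNeumannAlgebra.mem_commutant_iff.2 fun b hb => (mem_vnOf.1 hb a (by simp)).1.symm
  have hhP : h ∈ (vnOf {a, h}).commutant :=
    VonNeumannAlgebra.mem_commutant_iff.2 fun b hb => (mem_vnOf.1 hb h (by simp)).1.symm
  have hPM := hP M (hAM a1) h1
  have hAP := gen _ haP
  generalize (vnOf {a, h}).commutant = P at *
  have irr : ∀ x ∈ M, (∀ y ∈ P, x * y = y * x) → ∃ c : ℂ, x = c • (1 : H →L[ℂ] H) :=
    fun x hx hc => by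
      have hS : ∀ s ∈ (P : Set (H →L[ℂ] H)), star s ∈ (P : Set (H →L[ℂ] H)) :=
        fun s hs => star_mem hs
      refine scalar_of_min (P := B.rc M P) (IsStarProjection.one _) (one_mem _)
        (fun q q1 q2 _ => ?_) ((B.mem_rc hS).2 ⟨hx, hc⟩) (one_mul x) (mul_one x)
      rw [B.mem_rc hS] at q1
      have q3 : q ∈ A := (hA q).2 ⟨q1.1, fun y hy => q1.2 y (hAP hy)⟩
      have q4 := q1.2 h hhP
      rcases half q q3 q2 with h | h
      · exact Or.inl (irr0 q q3 q2 h q4)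
      · exact Or.inr (sub_eq_zero.1 (irr0 _ (sub_mem (one_mem A) q3) q2.one_sub h
          (by rw [sub_mul, mul_sub, q4, one_mul, mul_one]))).symm
  refine ⟨P, hPM, fun e e1 e2 e3 => ?_, irr, a, hAM a1, h, h1, a2, h2, hP⟩
  obtain ⟨q, q1, q2, q3, q4⟩ := B.small hξ hmA (tr_proj_pos hξ e2 (hPM e1) e3)
  obtain ⟨v, hv, v0, v1, v2, v3⟩ := exists_link (fun x hx hc => irr x (hPM hx) hc) e2 e1 q2
    (hAP q1) e3 q3
  refine ⟨star v * v, mul_mem (star_mem hv) hv, v1.init, by rw [← mul_assoc, proj_mul_star e2 v3],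
    fun h0 => v0 ((CStarRing.star_mul_self_eq_zero_iff v).1 h0), fun h0 => ?_⟩
  have := B.tr_le_of_pi hξ (hPM hv) v1 q2 v2
  rw [h0] at this
  linarith

end Crest.Agent.R95
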