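import Crest.Agent.R95.TS

/-! Row 95: the dyadic sewing estimate for a product of unitaries close to `1`. -/

set_option autoImplicit false

open scoped InnerProductSpace ComplexOrder

namespace Crest.Agent.R95

variable {A : Type*} [CStarAlgebra A]

theorem exists_trunc (X : A) {l : ℝ} (hl : 0 < l) :
    ∃ Y : A, ‖Y‖ ≤ l⁻¹ ∧ X = (l ^ 2) • Y + Y * (star X * X) := by
  have hsa : IsSelfAdjoint (star X * X) := IsSelfAdjoint.star_mul_self X
  have hsp : ∀ s ∈ spectrum ℝ (star X * X), 0 ≤ s := spectrum_star_mul_self_nonneg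
  have hc : ContinuousOn (fun s : ℝ => (l ^ 2 + s)⁻¹) (spectrum ℝ (star X * X)) :=
    ContinuousOn.inv₀ (by fun_prop) fun s hs => by have := hsp s hs; positivity
  set g := cfc (fun s : ℝ => (l ^ 2 + s)⁻¹) (star X * X) with hg
  have hgs : star g = g := (cfc_predicate _ _ : IsSelfAdjoint g).star_eq
  refine ⟨X * g, ?_, ?_⟩
  · have h1 : star (X * g) * (X * g) =
        cfc (fun s : ℝ => (l ^ 2 + s)⁻¹ * s * (l ^ 2 + s)⁻¹) (star X * X) := by
      rw [cfc_mul (fun s : ℝ => (l ^ 2 + s)⁻¹ * s) _ _ (hc.mul (by fun_prop)) hc,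
        cfc_mul _ (fun s : ℝ => s) _ hc, cfc_id' ℝ (star X * X), star_mul, hgs]
      simp only [mul_assoc, hg]
    have h2 : ‖star (X * g) * (X * g)‖ ≤ l⁻¹ ^ 2 := by
      rw [h1]
      refine norm_cfc_le (by positivity) fun s hs => ?_
      have := hsp s hs
      rw [Real.norm_of_nonneg (by positivity), inv_pow]
      have e : (l ^ 2 + s)⁻¹ * s * (l ^ 2 + s)⁻¹ = s / (l ^ 2 + s) ^ 2 := by field_simp
      rw [e, ← one_div, div_le_div_iff₀ (by positivity) (by positivity)]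
      nlinarith [sq_nonneg s, sq_nonneg (l ^ 2), mul_nonneg this (sq_nonneg l)]
    rw [CStarRing.norm_star_mul_self, ← sq] at h2
    exact (pow_le_pow_iff_left₀ (norm_nonneg _) (by positivity) two_ne_zero).1 h2
  · have h1 : (l ^ 2) • g + g * (star X * X) = 1 := by
      have : g * (star X * X) = cfc (fun s : ℝ => (l ^ 2 + s)⁻¹ * s) (star X * X) := by
        rw [cfc_mul _ (fun s : ℝ => s) _ hc, cfc_id' ℝ (star X * X)]
      rw [this, hg, ← cfc_const_mul _ _ _ hc, ← cfc_add (star X * X) (fun s : ℝ => l ^ 2 * (l ^ 2 + s)⁻¹)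
        (fun s : ℝ => (l ^ 2 + s)⁻¹ * s) (continuousOn_const.mul hc) (hc.mul (by fun_prop)),
        ← cfc_const_one ℝ (star X * X)]
      refine cfc_congr fun s hs => ?_
      have := hsp s hs
      field_simp
    rw [← mul_smul_comm, mul_assoc, ← mul_add, h1, mul_one]

namespace TS

variable (T : TS A)

/-- Bound on the trace 1-norm, by duality. -/
def N1 (r : A) (c : ℝ) : Prop := ∀ b : A, ‖T.τ (b * r)‖ ≤ ‖b‖ * c

variable {T}

theorem N1.mono {r : A} {c d : ℝ} (h : T.N1 r c) (hcd : c ≤ d) : T.N1 r d := fun b =>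
  (h b).trans (by gcongr)

theorem N1.add {r s : A} {c d : ℝ} (h : T.N1 r c) (h' : T.N1 s d) : T.N1 (r + s) (c + d) :=
  fun b => by
    rw [mul_add, map_add, mul_add]
    exact (norm_add_le _ _).trans (add_le_add (h b) (h' b))

theorem N1.mul_left {r x : A} {c : ℝ} (hc : 0 ≤ c) (h : T.N1 r c) (hx : ‖x‖ ≤ 1) :
    T.N1 (x * r) c := fun b => by
  rw [← mul_assoc]
  refine (h _).trans (mul_le_mul_of_nonneg_right ?_ hc)
  exact (norm_mul_le _ _).trans (mul_le_of_le_one_right (norm_nonneg _) hx)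

theorem N1.mul_right {r x : A} {c : ℝ} (hc : 0 ≤ c) (h : T.N1 r c) (hx : ‖x‖ ≤ 1) :
    T.N1 (r * x) c := fun b => by
  rw [← mul_assoc, T.comm, ← mul_assoc]
  refine (h _).trans (mul_le_mul_of_nonneg_right ?_ hc)
  exact (norm_mul_le _ _).trans (mul_le_of_le_one_left (norm_nonneg _) hx)

theorem N1_mul (x y : A) : T.N1 (x * y) (T.n2 x * T.n2 y) := fun b => by
  rw [← mul_assoc, ← mul_assoc]
  exact (T.cs _ _).trans (mul_le_mul_of_nonneg_right (T.n2_mul_le _ _) (T.n2_nonneg _))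

theorem N1_n2 (x : A) : T.N1 x (T.n2 x) := by
  simpa [n2_one] using N1_mul (T := T) 1 x

theorem N1.norm_τ {r : A} {c : ℝ} (hc : 0 ≤ c) (h : T.N1 r c) : ‖T.τ r‖ ≤ c := by
  have := h 1
  rw [one_mul] at this
  refine this.trans (mul_le_of_le_one_left hc ?_)
  exact norm_unitary_le (one_mem _)

theorem N1.trunc {r : A} {c l : ℝ} (hc : 0 ≤ c) (hl : 0 < l) (h : T.N1 r c) (X : A) :
    T.N1 (X * r) (l * c + T.n2 (star X * X) / l * T.n2 r) := by
  obtain ⟨Y, hY, e⟩ := exists_trunc X hl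
  generalize star X * X = W at e
  rw [e, add_mul]
  refine N1.add (fun b => ?_) ((N1_mul _ _).mono ?_)
  · rw [← mul_assoc]
    refine (h _).trans ?_
    rw [← mul_assoc]
    gcongr
    refine (norm_mul_le _ _).trans ?_
    gcongr
    rw [norm_smul, Real.norm_of_nonneg (by positivity)]
    calc l ^ 2 * ‖Y‖ ≤ l ^ 2 * l⁻¹ := by gcongr
      _ = l := by field_simp
  · refine mul_le_mul_of_nonneg_right ((T.n2_mul_le _ _).trans ?_) (T.n2_nonneg _)
    rw [div_eq_inv_mul]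
    exact mul_le_mul_of_nonneg_right hY (T.n2_nonneg _)

end TS

/-- Ordered product over `[s, s+m)`. -/
def oprod (z : ℕ → A) (s : ℕ) : ℕ → A
  | 0 => 1
  | m + 1 => oprod z s m * z (s + m)

/-- Sum over `[s, s+m)`. -/
def osum (y : ℕ → A) (s m : ℕ) : A := ∑ j ∈ Finset.range m, y (s + j)

/-- Ordered second-order sum over `[s, s+m)`. -/
def oarea (y : ℕ → A) (s m : ℕ) : A := ∑ k ∈ Finset.range m, osum y s k * y (s + k)

theorem oprod_add (z : ℕ → A) (s m k : ℕ) :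
    oprod z s (m + k) = oprod z s m * oprod z (s + m) k := by
  induction k with
  | zero => simp [oprod]
  | succ k ih => rw [← add_assoc, oprod, oprod, ih, mul_assoc, add_assoc]

theorem osum_add (y : ℕ → A) (s m k : ℕ) : osum y s (m + k) = osum y s m + osum y (s + m) k := by
  simp only [osum, Finset.sum_range_add, add_assoc]

theorem oarea_add (y : ℕ → A) (s m k : ℕ) :
    oarea y s (m + k) = oarea y s m + oarea y (s + m) k + osum y s m * osum y (s + m) k := by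
  have e : osum y s m * osum y (s + m) k = ∑ i ∈ Finset.range k, osum y s m * y (s + (m + i)) := by
    rw [← Finset.mul_sum]; simp only [osum, add_assoc]
  simp only [oarea, Finset.sum_range_add, osum_add, add_mul, Finset.sum_add_distrib, add_assoc, e]
  abel

theorem oprod_mem {z : ℕ → A} (hz : ∀ j, z j ∈ unitary A) (s m : ℕ) : oprod z s m ∈ unitary A := by
  induction m with
  | zero => exact one_mem _
  | succ m ih => exact mul_mem ih (hz _)

theorem osum_skew {y : ℕ → A} (hy : ∀ j, star (y j) = -y j) (s m : ℕ) :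
    star (osum y s m) = -osum y s m := by
  simp only [osum, star_sum, hy, Finset.sum_neg_distrib]

namespace TS

variable (T : TS A)

theorem n2_sq_skew {x : A} (hx : star x = -x) : T.n2 x ^ 2 ≤ T.n2 (x * x) := by
  rw [n2_sq]
  refine (Complex.re_le_norm _).trans ((T.norm_τ_le_n2 _).trans ?_)
  rw [hx, neg_mul, n2_neg]

theorem sew_aux {Z X Ar : A} {μ : ℝ} (hμ : 0 < μ) (hμ1 : 25 * μ ≤ 1) (hZ : Z ∈ unitary A)
    (hX : star X = -X) (h1 : T.n2 (X * X) ≤ μ ^ 4) (h2 : T.n2 Ar ≤ μ ^ 4)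
    (h3 : T.N1 (Z - 1 - X - Ar) (μ ^ 4 + 25 * μ ^ 5)) :
    T.N1 (Z - 1 - X) (3 * μ ^ 4) ∧ T.n2 (Z - 1) ≤ 5 / 2 * μ ^ 2 ∧
      T.n2 (Z - 1 - X) ≤ 7 / 2 * μ ^ 2 := by
  have a1 : T.N1 (Z - 1 - X) (3 * μ ^ 4) := by
    have := h3.add (N1_n2 (T := T) Ar)
    rw [sub_add_cancel] at this
    refine this.mono ?_
    have : 25 * μ ^ 5 ≤ μ ^ 4 := by nlinarith [pow_pos hμ 4]
    linarith
  have a2 : T.n2 (Z - 1) ≤ 5 / 2 * μ ^ 2 := by
    have b1 := a1.norm_τ (by positivity)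
    have b2 := T.n2_sub_sq 1 Z
    rw [n2_one, T.n2_unitary hZ, star_one, one_mul, n2_sub_comm] at b2
    have b3 := T.re_τ_skew hX
    have b4 := (Complex.abs_re_le_norm _).trans b1
    rw [map_sub, map_sub, T.one, Complex.sub_re, Complex.sub_re, Complex.one_re, b3] at b4
    have b5 := (abs_le.1 b4).1
    refine (pow_le_pow_iff_left₀ (T.n2_nonneg _) (by positivity) two_ne_zero).1 ?_
    nlinarith [pow_pos hμ 4]
  refine ⟨a1, a2, (T.n2_sub_le _ _).trans ?_⟩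
  have a3 : T.n2 X ≤ μ ^ 2 := by
    refine (pow_le_pow_iff_left₀ (T.n2_nonneg _) (by positivity) two_ne_zero).1 ?_
    have := T.n2_sq_skew hX
    nlinarith
  linarith

theorem sew {y z : ℕ → A} {n : ℕ} {l : ℝ} (hl : 0 < l) (hy : ∀ j, star (y j) = -y j)
    (hz : ∀ j, z j ∈ unitary A) (hr : ∀ j, ∃ r, ‖r‖ ≤ 1 ∧ z j = 1 + y j + y j * r * y j)
    (h1 : ∀ s m, s + m ≤ n → T.n2 (osum y s m * osum y s m) ≤ m * l)
    (h2 : ∀ s m, s + m ≤ n → T.n2 (oarea y s m) ≤ m * l) (hn : 25 ^ 4 * (n * l) ≤ 1) (k : ℕ) :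
    ∀ (s : ℕ) (μ : ℝ), 0 < μ → μ ^ 4 = 2 ^ k * l → s + 2 ^ k ≤ n →
      T.N1 (oprod z s (2 ^ k) - 1 - osum y s (2 ^ k) - oarea y s (2 ^ k)) (μ ^ 4 + 25 * μ ^ 5) := by
  induction k with
  | zero =>
    intro s μ hμ hμ4 hs
    obtain ⟨r, hr1, hr2⟩ := hr s
    have e : oprod z s (2 ^ 0) - 1 - osum y s (2 ^ 0) - oarea y s (2 ^ 0) = y s * (r * y s) := by
      simp [oprod, osum, oarea, hr2, mul_assoc]; abel
    rw [e]
    refine (N1_mul _ _).mono ?_
    have a1 := h1 s 1 hs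
    simp only [osum, Finset.sum_range_one, add_zero, Nat.cast_one, one_mul] at a1
    have a2 := T.n2_sq_skew (hy s)
    have a3 : T.n2 (r * y s) ≤ T.n2 (y s) :=
      (T.n2_mul_le _ _).trans (mul_le_of_le_one_left (T.n2_nonneg _) hr1)
    have a4 := mul_le_mul_of_nonneg_left a3 (T.n2_nonneg (y s))
    nlinarith [pow_pos hμ 5]
  | succ k ih =>
    intro s μ' hμ' hμ4 hs
    set μ := √(√(2 ^ k * l)) with hμdef
    have hμ : 0 < μ := by positivity
    have hμ4' : μ ^ 4 = 2 ^ k * l := by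
      rw [show (4 : ℕ) = 2 * 2 from rfl, pow_mul, hμdef, Real.sq_sqrt (by positivity),
        Real.sq_sqrt (by positivity)]
    clear_value μ
    have hs1 : s + 2 ^ k ≤ n := by rw [pow_succ] at hs; omega
    have hs2 : s + 2 ^ k + 2 ^ k ≤ n := by rw [pow_succ] at hs; omega
    have hμ1 : 25 * μ ≤ 1 := by
      refine (pow_le_pow_iff_left₀ (by positivity) zero_le_one (show 4 ≠ 0 by norm_num)).1 ?_
      have : ((2 ^ k : ℕ) : ℝ) ≤ n := by exact_mod_cast le_trans (Nat.le_add_left _ _) hs1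
      push_cast at this
      rw [mul_pow, hμ4', one_pow]
      refine le_trans ?_ hn
      gcongr
    have i1 := ih s μ hμ hμ4' hs1
    have i2 := ih (s + 2 ^ k) μ hμ hμ4' hs2
    have c1 := h1 s _ hs1
    have c2 := h2 s _ hs1
    have c3 := h1 _ _ hs2
    have c4 := h2 _ _ hs2
    push_cast at c1 c2 c3 c4
    rw [← hμ4'] at c1 c2 c3 c4
    have hZ := oprod_mem hz (s + 2 ^ k) (2 ^ k)
    obtain ⟨d1, d2, d3⟩ := T.sew_aux hμ hμ1 hZ (osum_skew hy _ _) c3 c4 i2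
    have hX := osum_skew hy s (2 ^ k)
    rw [pow_succ 2 k, mul_two, oprod_add, osum_add, oarea_add]
    generalize oprod z s (2 ^ k) = Z1 at *
    generalize oprod z (s + 2 ^ k) (2 ^ k) = Z2 at *
    generalize osum y s (2 ^ k) = X1 at *
    generalize osum y (s + 2 ^ k) (2 ^ k) = X2 at *
    generalize oarea y s (2 ^ k) = A1 at *
    generalize oarea y (s + 2 ^ k) (2 ^ k) = A2 at *
    have e : Z1 * Z2 - 1 - (X1 + X2) - (A1 + A2 + X1 * X2) =
        (Z1 - 1 - X1 - A1) * Z2 + (Z2 - 1 - X2 - A2) + X1 * (Z2 - 1 - X2) + A1 * (Z2 - 1) := by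
      noncomm_ring
    rw [e]
    refine ((((i1.mul_right (by positivity) (norm_unitary_le hZ)).add i2).add
      (d1.trunc (by positivity) hμ X1)).add (N1_mul _ _)).mono ?_
    have f1 : T.n2 (star X1 * X1) / μ * T.n2 (Z2 - 1 - X2) ≤ 7 / 2 * μ ^ 5 := by
      rw [hX, neg_mul, n2_neg]
      calc _ ≤ μ ^ 4 / μ * (7 / 2 * μ ^ 2) := by gcongr; exact T.n2_nonneg _
        _ = _ := by field_simp
    have f2 : T.n2 A1 * T.n2 (Z2 - 1) ≤ 5 / 2 * μ ^ 5 := by
      calc _ ≤ μ ^ 4 * (5 / 2 * μ ^ 2) := by gcongr; exact T.n2_nonneg _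
        _ = 5 / 2 * μ ^ 5 * μ := by ring
        _ ≤ 5 / 2 * μ ^ 5 * 1 := by gcongr; linarith
        _ = _ := mul_one _
    have f3 : μ' ^ 4 = 2 * μ ^ 4 := by rw [hμ4, hμ4']; ring
    have f4 : 118 / 100 * μ ≤ μ' := by
      refine (pow_le_pow_iff_left₀ (by positivity) hμ'.le (show 4 ≠ 0 by norm_num)).1 ?_
      rw [f3, mul_pow]
      have := pow_pos hμ 4
      nlinarith
    have f5 : 2 * μ ^ 4 * (118 / 100 * μ) ≤ μ' ^ 5 := by
      rw [← f3, pow_succ μ' 4]; gcongr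
    nlinarith

theorem sew_fin {y z : ℕ → A} {k : ℕ} {l μ : ℝ} (hl : 0 < l) (hy : ∀ j, star (y j) = -y j)
    (hz : ∀ j, z j ∈ unitary A) (hr : ∀ j, ∃ r, ‖r‖ ≤ 1 ∧ z j = 1 + y j + y j * r * y j)
    (h1 : ∀ s m, s + m ≤ 2 ^ k → T.n2 (osum y s m * osum y s m) ≤ m * l)
    (h2 : ∀ s m, s + m ≤ 2 ^ k → T.n2 (oarea y s m) ≤ m * l) (hμ : 0 < μ) (hμ1 : 25 * μ ≤ 1)
    (hμ4 : μ ^ 4 = 2 ^ k * l) :
    T.N1 (oprod z 0 (2 ^ k) - 1 - osum y 0 (2 ^ k)) (3 * μ ^ 4) ∧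
      T.n2 (oprod z 0 (2 ^ k) - 1 - osum y 0 (2 ^ k)) ≤ 7 / 2 * μ ^ 2 := by
  have hn : 25 ^ 4 * (((2 ^ k : ℕ) : ℝ) * l) ≤ 1 := by
    push_cast
    rw [← hμ4, ← mul_pow]
    exact pow_le_one₀ (by positivity) hμ1
  have c1 := h1 0 (2 ^ k) (by simp)
  have c2 := h2 0 (2 ^ k) (by simp)
  push_cast at c1 c2
  rw [← hμ4] at c1 c2
  obtain ⟨d1, -, d3⟩ := T.sew_aux hμ hμ1 (oprod_mem hz 0 (2 ^ k)) (osum_skew hy _ _) c1 c2
    (T.sew hl hy hz hr h1 h2 hn k 0 μ hμ hμ4 (by simp))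
  exact ⟨d1, d3⟩

end TS

end Crest.Agent.R95
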