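import Crest.Agent.R95.Dix
import Crest.Agent.R95.Sew

/-! Row 95: choice of the letters. -/

set_option autoImplicit false

open scoped InnerProductSpace ComplexOrder
open Crest.Agent.R124

namespace Crest.Agent.R95

variable {A : Type*} [CStarAlgebra A]

theorem oprod_congr {z z' : ℕ → A} {s m : ℕ} (h : ∀ t, s ≤ t → t < s + m → z t = z' t) :
    oprod z s m = oprod z' s m := by
  induction m with
  | zero => rfl
  | succ m ih =>
    rw [oprod, oprod, ih fun t h1 h2 => h t h1 (by omega), h _ (by omega) (by omega)]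

/-- Interval word. -/
def GG (z : ℕ → A) (j k : ℕ) : A := star (oprod z 0 j) * oprod z 0 k

theorem GG_star (z : ℕ → A) (j k : ℕ) : star (GG z j k) = GG z k j := by simp [GG]

theorem GG_mem {z : ℕ → A} (hz : ∀ j, z j ∈ unitary A) (j k : ℕ) : GG z j k ∈ unitary A :=
  mul_mem (Unitary.star_mem (oprod_mem hz _ _)) (oprod_mem hz _ _)

theorem GG_eq {z : ℕ → A} (hz : ∀ j, z j ∈ unitary A) {j k : ℕ} (h : j ≤ k) :
    GG z j k = oprod z j (k - j) := by
  obtain ⟨m, rfl⟩ := Nat.exists_eq_add_of_le h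
  rw [GG, oprod_add, ← mul_assoc, Unitary.star_mul_self_of_mem (oprod_mem hz _ _), one_mul,
    zero_add, Nat.add_sub_cancel_left]

theorem update_mem {z : ℕ → A} (hz : ∀ j, z j ∈ unitary A) (t : ℕ) {b : A} (hb : b ∈ unitary A)
    (j : ℕ) : Function.update z t b j ∈ unitary A := by
  by_cases h : j = t
  · subst h; simpa using hb
  · rw [Function.update_of_ne h]; exact hz j

theorem GG_update {z : ℕ → A} (hz : ∀ j, z j ∈ unitary A) {t j k : ℕ} {b : A} (hb : b ∈ unitary A)
    (ht : ¬(min j k ≤ t ∧ t < max j k)) : GG (Function.update z t b) j k = GG z j k := by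
  wlog h : j ≤ k generalizing j k
  · rw [← GG_star, this (by rwa [min_comm, max_comm]) (le_of_not_ge h), GG_star]
  rw [GG_eq (update_mem hz t hb) h, GG_eq hz h]
  exact oprod_congr fun s h1 h2 => Function.update_of_ne (by omega) _ _

theorem GG_split {z : ℕ → A} (hz : ∀ j, z j ∈ unitary A) {t j k : ℕ} (h1 : j ≤ t) (h2 : t < k) :
    ∃ L ∈ unitary A, ∃ R ∈ unitary A, ∀ b ∈ unitary A,
      GG (Function.update z t b) j k = L * b * R := by
  refine ⟨oprod z j (t - j), oprod_mem hz _ _, oprod z (t + 1) (k - (t + 1)), oprod_mem hz _ _,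
    fun b hb => ?_⟩
  rw [GG_eq (update_mem hz t hb) (by omega), show k - j = (t - j + 1) + (k - (t + 1)) by omega,
    oprod_add, oprod, show j + (t - j) = t by omega, Function.update_self,
    show j + (t - j + 1) = t + 1 by omega,
    oprod_congr (z := Function.update z t b) (z' := z) (s := j) (m := t - j)
      fun s h1 h2 => Function.update_of_ne (by omega) _ _,
    oprod_congr (z := Function.update z t b) (z' := z) (s := t + 1) (m := k - (t + 1))
      fun s h1 h2 => Function.update_of_ne (by omega) _ _]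

namespace TS

variable (T : TS A) {P : StarSubalgebra ℂ A}

theorem one_side {z : ℕ → A} (hz : ∀ j, z j ∈ unitary A) {t j k : ℕ}
    (ht : min j k ≤ t ∧ t < max j k) {Y : A} (hY : Y ∈ unitary A) :
    ∃ w ∈ unitary A, ∀ b ∈ unitary A,
      ‖T.τ (GG (Function.update z t b) j k * Y)‖ = ‖T.τ (w * b)‖ := by
  rcases le_total j k with h | h
  · obtain ⟨L, hL, R, hR, e⟩ := GG_split hz (t := t) (j := j) (k := k) (by omega) (by omega)
    refine ⟨R * Y * L, mul_mem (mul_mem hR hY) hL, fun b hb => ?_⟩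
    rw [e b hb, mul_assoc, T.comm]; simp only [mul_assoc]
  · obtain ⟨L, hL, R, hR, e⟩ := GG_split hz (t := t) (j := k) (k := j) (by omega) (by omega)
    refine ⟨R * star Y * L, mul_mem (mul_mem hR (Unitary.star_mem hY)) hL, fun b hb => ?_⟩
    rw [← GG_star, e b hb, ← RCLike.norm_conj, ← T.τ_star, star_mul, star_star, ← mul_assoc,
      T.comm]
    simp only [mul_assoc]

/-- Exceptional index patterns. -/
def Exc (j k i i' : ℕ) : Prop := (j = k ∧ i = i') ∨ (j = i ∧ k = i') ∨ (j = i' ∧ k = i)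

instance (j k i i' : ℕ) : Decidable (Exc j k i i') := by unfold Exc; infer_instance

theorem letters (hS : T.Sym P) {u : A} (hu : u ∈ unitary A) (n : ℕ) {ε : ℝ} (hε : 0 < ε) :
    ∃ a : ℕ → A, (∀ t, UP P (a t)) ∧ ∀ j < n, ∀ k < n, ∀ i < n, ∀ i' < n, ¬Exc j k i i' →
      ‖T.τ (GG (fun t => u * a t) j k * GG (fun t => u * a t) i' i)‖ ≤ ε := by
  classical
  obtain ⟨Λ, _, _, c, hc, hρ⟩ := hS (ε ^ 2 / (n ^ 4 + 1)) (by positivity)
  let a : (Fin n → Λ) → ℕ → A := fun ω t => if h : t < n then c (ω ⟨t, h⟩) else 1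
  have ha : ∀ ω t, UP P (a ω t) := fun ω t => by
    simp only [a]; split_ifs; exacts [hc _, ⟨one_mem _, one_mem _⟩]
  let z : (Fin n → Λ) → ℕ → A := fun ω t => u * a ω t
  have hz : ∀ ω t, z ω t ∈ unitary A := fun ω t => mul_mem hu (ha ω t).2
  have hup : ∀ ω (r : Fin n) β, z (Function.update ω r β) = Function.update (z ω) r (u * c β) := by
    intro ω r β
    funext t
    by_cases h : t = r
    · subst h; simp [z, a]
    · rw [Function.update_of_ne h]
      simp only [z, a]
      split_ifs with h'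
      · rw [Function.update_of_ne fun e => h (congrArg Fin.val e)]
      · rfl
  have key : ∀ j < n, ∀ k < n, ∀ i < n, ∀ i' < n, ¬Exc j k i i' →
      av (fun ω => ‖T.τ (GG (z ω) j k * GG (z ω) i' i)‖ ^ 2) ≤ ε ^ 2 / (n ^ 4 + 1) := by
    intro j hj k hk i hi i' hi' hE
    have : ∃ t < n, ∀ y : ℕ → A, (∀ s, y s ∈ unitary A) → ∃ w ∈ unitary A, ∀ b ∈ unitary A,
        ‖T.τ (GG (Function.update y t b) j k * GG (Function.update y t b) i' i)‖ =
          ‖T.τ (w * b)‖ := by
      have : ∃ t, ((min j k ≤ t ∧ t < max j k) ∧ ¬(min i' i ≤ t ∧ t < max i' i)) ∨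
          (¬(min j k ≤ t ∧ t < max j k) ∧ (min i' i ≤ t ∧ t < max i' i)) := by
        by_contra hcon
        rw [not_exists] at hcon
        have h1 := hcon (min j k)
        have h2 := hcon (min i' i)
        have h3 := hcon (max j k - 1)
        have h4 := hcon (max i' i - 1)
        unfold Exc at hE
        omega
      obtain ⟨t, ⟨h1, h2⟩ | ⟨h1, h2⟩⟩ := this
      · refine ⟨t, by omega, fun y hy => ?_⟩
        obtain ⟨w, hw, e⟩ := T.one_side hy h1 (GG_mem hy i' i)
        exact ⟨w, hw, fun b hb => by rw [GG_update hy hb h2, e b hb]⟩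
      · refine ⟨t, by omega, fun y hy => ?_⟩
        obtain ⟨w, hw, e⟩ := T.one_side hy h2 (GG_mem hy j k)
        exact ⟨w, hw, fun b hb => by rw [GG_update hy hb h1, T.comm, e b hb]⟩
    obtain ⟨t, ht, h⟩ := this
    rw [av_update (⟨t, ht⟩ : Fin n)]
    refine av_le (by positivity) fun ω => ?_
    obtain ⟨w, hw, e⟩ := h (z ω) (hz ω)
    simp only [hup, e _ (mul_mem hu (hc _).2), ← mul_assoc]
    exact hρ _ (norm_unitary_le (mul_mem hw hu))
  let D := ((Finset.range n ×ˢ Finset.range n) ×ˢ (Finset.range n ×ˢ Finset.range n)).filter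
    fun q => ¬Exc q.1.1 q.1.2 q.2.1 q.2.2
  obtain ⟨ω, hω⟩ := exists_le_av
    fun ω => ∑ q ∈ D, ‖T.τ (GG (z ω) q.1.1 q.1.2 * GG (z ω) q.2.2 q.2.1)‖ ^ 2
  rw [av_sum] at hω
  have h1 : ∑ q ∈ D, av (fun ω => ‖T.τ (GG (z ω) q.1.1 q.1.2 * GG (z ω) q.2.2 q.2.1)‖ ^ 2) ≤
      ε ^ 2 := by
    calc _ ≤ ∑ _q ∈ D, ε ^ 2 / (n ^ 4 + 1) := Finset.sum_le_sum fun q hq => by
          simp only [D, Finset.mem_filter, Finset.mem_product, Finset.mem_range] at hq
          exact key _ hq.1.1.1 _ hq.1.1.2 _ hq.1.2.1 _ hq.1.2.2 hq.2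
      _ ≤ (n ^ 4 + 1) * (ε ^ 2 / (n ^ 4 + 1)) := by
          rw [Finset.sum_const, nsmul_eq_mul]
          gcongr
          have : D.card ≤ n * n * (n * n) := (Finset.card_filter_le _ _).trans (by simp)
          have h2 : (D.card : ℝ) ≤ n * n * (n * n) := by exact_mod_cast this
          nlinarith
      _ = _ := by field_simp
  refine ⟨a ω, ha ω, fun j hj k hk i hi i' hi' hE => ?_⟩
  refine (pow_le_pow_iff_left₀ (norm_nonneg _) hε.le two_ne_zero).1 (le_trans ?_ (hω.trans h1))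
  exact Finset.single_le_sum (f := fun q : (ℕ × ℕ) × ℕ × ℕ =>
    ‖T.τ (GG (z ω) q.1.1 q.1.2 * GG (z ω) q.2.2 q.2.1)‖ ^ 2) (fun _ _ => by positivity)
    (a := ((j, k), (i, i'))) (by simp [D, hj, hk, hi, hi', hE])

end TS

end Crest.Agent.R95
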