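import Crest.Agent.R124.Kap
import Crest.Agent.R95.Letters

/-! Row 95: covariance and first-order computations. -/

set_option autoImplicit false

open scoped InnerProductSpace ComplexOrder
open Crest.Agent.R124

namespace Crest.Agent.R95

variable {A : Type*} [CStarAlgebra A]

theorem cayley {y : A} (hy : star y = -y) : ∃ c ∈ unitary A, (∃ g, ‖g‖ ≤ 1 ∧ c = 1 + y * g) ∧
    ∃ r, ‖r‖ ≤ 1 ∧ c = 1 + y + y * r * y := by
  obtain ⟨k, rfl⟩ : ∃ k : A, y = k + k := ⟨(2⁻¹ : ℝ) • y, by rw [← add_smul]; norm_num⟩
  have hk : star k = -k := by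
    have h : (2⁻¹ : ℝ) • star (k + k) = (2⁻¹ : ℝ) • -(k + k) := by rw [hy]
    rw [star_add, ← two_smul ℝ, ← two_smul ℝ, ← smul_neg, smul_smul, smul_smul] at h
    simpa using h
  have hb : IsSelfAdjoint (Complex.I • k) := by
    rw [IsSelfAdjoint, star_smul, hk]; simp
  obtain ⟨r, h1, h2, h3, h4, h5, -⟩ := Kap.resolvent hb
  have e : Complex.I • k * Complex.I • k = -(k * k) := by
    rw [smul_mul_smul_comm, Complex.I_mul_I, neg_smul, one_smul]
  rw [e] at h1 h2
  have h6 : r * k = k * r := by
    rw [mul_smul_comm, smul_mul_assoc] at h3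
    exact smul_right_injective A Complex.I_ne_zero h3
  have g1 : (1 - k) * ((1 + k) * r) = 1 := Eq.trans (by noncomm_ring) h2
  have g2 : ((1 + k) * r) * (1 - k) = 1 := by
    calc _ = r + k * r - r * k - k * (r * k) := by noncomm_ring
      _ = (1 + -(k * k)) * r := by rw [h6]; noncomm_ring
      _ = 1 := h2
  have g3 : star ((1 + k) * r) * ((1 + k) * r) = r := by
    rw [star_mul, h5.star_eq, star_add, star_one, hk, mul_assoc, ← sub_eq_add_neg, g1, mul_one]
  have g4 : ‖(1 + k) * r‖ ≤ 1 := by
    have := CStarRing.norm_star_mul_self (x := (1 + k) * r)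
    rw [g3] at this
    nlinarith [norm_nonneg ((1 + k) * r)]
  have g5 : star ((1 + k) * r) = r * (1 - k) := by
    rw [star_mul, h5.star_eq, star_add, star_one, hk, ← sub_eq_add_neg]
  have g6 : ((1 + k) * r) * (1 + k) = (1 + k) * ((1 + k) * r) := by
    calc _ = r + k * r + r * k + k * (r * k) := by noncomm_ring
      _ = _ := by rw [h6]; noncomm_ring
  have g7 : r * (1 - k) * (1 + k) = 1 := Eq.trans (by noncomm_ring) h1
  have g8 : (1 + k) * (r * (1 - k)) = 1 := by rw [← mul_assoc, g2]
  generalize (1 + k) * r = g at *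
  have c1 : (1 + k) * g = 1 + (k + k) * g := by
    calc _ = (1 - k) * g + (k + k) * g := by noncomm_ring
      _ = _ := by rw [g1]
  refine ⟨(1 + k) * g, ⟨?_, ?_⟩, ⟨g, g4, c1⟩, (2⁻¹ : ℝ) • g, ?_, ?_⟩
  · rw [star_mul, g5, star_add, star_one, hk, ← sub_eq_add_neg]
    calc _ = r * (1 - k) * (1 + k) * ((1 - k) * g) := by noncomm_ring
      _ = 1 := by rw [g7, g1, one_mul]
  · rw [← g6, star_mul, g5, star_add, star_one, hk, ← sub_eq_add_neg]
    calc _ = g * (1 - k) * ((1 + k) * (r * (1 - k))) := by noncomm_ring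
      _ = 1 := by rw [g8, g2, one_mul]
  · rw [norm_smul]; norm_num; linarith
  · have : 1 + g * k = g := by
      calc _ = g * (1 - k) + g * k := by rw [g2]
        _ = g := by noncomm_ring
    have e2 : (2⁻¹ : ℝ) • g * (k + k) = g * k := by
      rw [← two_smul ℝ, smul_mul_smul_comm]; norm_num
    rw [c1, mul_assoc, e2]
    calc _ = 1 + (k + k) * (1 + g * k) := by rw [this]
      _ = _ := by noncomm_ring

theorem word_eq {u c : A} {a : ℕ → A} (hz : ∀ t, u * a t ∈ unitary A) (n : ℕ) :
    oprod (fun t => c * u * a t) 0 n =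
      oprod (fun j => oprod (fun t => u * a t) 0 j * c * star (oprod (fun t => u * a t) 0 j)) 0 n *
        oprod (fun t => u * a t) 0 n := by
  induction n with
  | zero => simp [oprod]
  | succ n ih =>
    rw [oprod, oprod, oprod, ih, zero_add]
    have := Unitary.star_mul_self_of_mem (oprod_mem hz 0 n)
    generalize oprod (fun t => u * a t) 0 n = h at *
    simp only [mul_assoc]
    rw [← mul_assoc (star h), this, one_mul]

theorem oprod_apply {Ω : Type*} [Fintype Ω] (z : ℕ → Ω → A) (s m : ℕ) (ω : Ω) :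
    oprod z s m ω = oprod (fun j => z j ω) s m := by
  induction m with
  | zero => rfl
  | succ m ih => rw [oprod, oprod, Pi.mul_apply, ih]

namespace TS

variable (T : TS A) {ι : Type*} [Fintype ι]

theorem n2_le_of_sub {Φ : A} {c : ℂ} {ε : ℝ} (h : T.n2 (Φ - c • 1) ≤ ε) : T.n2 Φ ≤ ‖c‖ + ε := by
  have := T.n2_add_le (Φ - c • 1) (c • 1)
  rw [sub_add_cancel, n2_csmul, n2_one, mul_one] at this
  linarith

theorem cov_term {w : ι → A} {U q g : A} (hU : U ∈ unitary A) (hq : q ∈ unitary A) {ε : ℝ}
    (h0 : ∀ x, av (fun i => w i * x * w i) = 0 ∧ av (fun i => star (w i) * x * star (w i)) = 0)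
    (h1 : T.n2 (av (fun i => star (w i) * (star U * g * U) * w i) - T.τ (star U * g * U) • 1) ≤ ε)
    (h2 : T.n2 (av (fun i => w i * (star q * g * q) * star (w i)) - T.τ (star q * g * q) • 1) ≤ ε) :
    T.n2 (av fun i => (star (U * w i * star q) - U * w i * star q) * g *
      (star (U * w i * star q) - U * w i * star q)) ≤ 2 * (‖T.τ g‖ + ε) := by
  have e : ∀ i, (star (U * w i * star q) - U * w i * star q) * g *
      (star (U * w i * star q) - U * w i * star q) =
      q * (star (w i) * (star U * g * q) * star (w i)) * star U -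
        q * (star (w i) * (star U * g * U) * w i) * star q -
        U * (w i * (star q * g * q) * star (w i)) * star U +
        U * (w i * (star q * g * U) * w i) * star q := fun i => by
    simp only [star_mul, star_star]; noncomm_ring
  simp only [e, av_add, av_sub, ← av_mul, ← mul_av, (h0 _).1, (h0 _).2, mul_zero, zero_mul,
    zero_sub, add_zero]
  have a1 := T.n2_le_of_sub h1
  have a2 := T.n2_le_of_sub h2
  rw [T.τ_conj' hU] at a1
  rw [T.τ_conj' hq] at a2
  refine (T.n2_sub_le _ _).trans ?_
  rw [n2_neg, T.n2_conj hq, T.n2_conj hU]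
  linarith

theorem first_term {w : ι → A} {U q x γ : A}
    (h0 : ∀ x, av (fun i => w i * x * w i) = 0) :
    av (fun i => T.τ (U * w i * x * (γ * (star (U * w i * star q) - U * w i * star q) * star γ))) =
      T.τ (x * γ * q * av fun i => star (w i) * (star U * star γ * U) * w i) := by
  have e : ∀ i, T.τ (U * w i * x * (γ * (star (U * w i * star q) - U * w i * star q) * star γ)) =
      T.τ (x * γ * q * (star (w i) * (star U * star γ * U) * w i)) -
        T.τ (U * (w i * (x * γ * U) * w i) * (star q * star γ)) := fun i => by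
    have : T.τ (x * γ * q * (star (w i) * (star U * star γ * U) * w i)) =
        T.τ (U * w i * (x * γ * q * star (w i) * star U * star γ)) := by
      rw [T.comm (U * w i)]; simp only [mul_assoc]
    rw [this, ← map_sub]
    congr 1
    simp only [star_mul, star_star]; noncomm_ring
  simp only [e, av_sub, ← τ_av, ← av_mul, ← mul_av, h0, mul_zero, zero_mul, map_zero, sub_zero]

theorem exc_count (n j k : ℕ) {ε : ℝ} (hε : 0 ≤ ε) :
    ∑ i ∈ Finset.range n, ∑ i' ∈ Finset.range n, (if Exc j k i i' then 1 else ε) ≤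
      (if j = k then (n : ℝ) else 0) + 2 + n ^ 2 * ε := by
  have h : ∀ i i', (if Exc j k i i' then 1 else ε) ≤
      (if j = k then (if i = i' then 1 else 0) else 0) +
      (if j = i then (if k = i' then 1 else 0) else 0) +
      (if k = i then (if j = i' then 1 else 0) else 0) + ε := fun i i' => by
    by_cases hE : Exc j k i i'
    · rw [if_pos hE]
      rcases hE with ⟨rfl, rfl⟩ | ⟨rfl, rfl⟩ | ⟨rfl, rfl⟩ <;> simp only [if_true] <;>
        split_ifs <;> linarith
    · rw [if_neg hE]
      split_ifs <;> linarith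
  refine (Finset.sum_le_sum fun i _ => Finset.sum_le_sum fun i' _ => h i i').trans ?_
  simp only [Finset.sum_add_distrib]
  have a1 : ∑ i ∈ Finset.range n, ∑ i' ∈ Finset.range n,
      (if j = k then (if i = i' then (1 : ℝ) else 0) else 0) ≤ if j = k then (n : ℝ) else 0 := by
    split_ifs
    · simp only [Finset.sum_ite_eq]
      rw [Finset.sum_congr rfl fun i hi => if_pos hi]; simp
    · simp
  have a2 : ∀ j k : ℕ, ∑ i ∈ Finset.range n, ∑ i' ∈ Finset.range n,
      (if j = i then (if k = i' then (1 : ℝ) else 0) else 0) ≤ 1 := fun j k => by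
    simp only [Finset.sum_ite_irrel, Finset.sum_ite_eq, Finset.sum_const_zero]
    split_ifs <;> norm_num
  have a3 : ∑ _i ∈ Finset.range n, ∑ _i' ∈ Finset.range n, ε = n ^ 2 * ε := by
    simp only [Finset.sum_const, Finset.card_range, nsmul_eq_mul]; ring
  linarith [a2 j k, a2 k j]

end TS

end Crest.Agent.R95
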