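import Crest.Agent.R95.Key1

/-! Row 95: the key lemma. -/

set_option autoImplicit false
set_option linter.unusedSectionVars false

open scoped InnerProductSpace ComplexOrder
open Crest.Agent.R124

namespace Crest.Agent.R95

variable {A : Type*} [CStarAlgebra A]

namespace TS

variable (T : TS A) {ι : Type} [Fintype ι] [DecidableEq ι] [Nonempty ι]

/-- The quadratic bounds needed for the sewing lemma. -/
theorem quad_ok {h : ℕ → A} (hh : ∀ j, h j ∈ unitary A) {Y : ι → A} (hY : ∀ α, star (Y α) = -Y α)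
    {n : ℕ} (hn : 0 < n) {s : ℝ}
    (hC : ∀ j < n, ∀ k < n, T.n2 (∑ α, Y α * (star (h j) * h k) * Y α) ≤
      2 * s ^ 2 * ((if j = k then (n : ℝ) else 0) + 3))
    (t m : ℕ) (htm : t + m ≤ n) (D : Finset (ℕ × ℕ)) (hD : D ⊆ Finset.range m ×ˢ Finset.range m) :
    (T.pi (ι → Bool)).n2 (fun ε => ∑ p ∈ D,
      (h (t + p.1) * (∑ α, sg (ε α) • Y α) * star (h (t + p.1))) *
        (h (t + p.2) * (∑ α, sg (ε α) • Y α) * star (h (t + p.2)))) ≤ m * (16 * s ^ 2 * n) := by
  have h1 := T.quad_bound (Finset.range m) D hD (fun j α => h (t + j) * Y α * star (h (t + j)))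
    fun j α => by simp only [star_mul, star_star, hY, mul_assoc, neg_mul, mul_neg]
  have h2 : ∑ j ∈ Finset.range m, ∑ k ∈ Finset.range m, T.n2 (∑ α,
      h (t + j) * Y α * star (h (t + j)) * (h (t + k) * Y α * star (h (t + k)))) ≤
      m * (8 * s ^ 2 * n) := by
    calc _ ≤ ∑ j ∈ Finset.range m, ∑ k ∈ Finset.range m,
          2 * s ^ 2 * ((if j = k then (n : ℝ) else 0) + 3) :=
          Finset.sum_le_sum fun j hj => Finset.sum_le_sum fun k hk => by
            rw [Finset.mem_range] at hj hk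
            have e : ∑ α, h (t + j) * Y α * star (h (t + j)) * (h (t + k) * Y α * star (h (t + k))) =
                h (t + j) * (∑ α, Y α * (star (h (t + j)) * h (t + k)) * Y α) * star (h (t + k)) := by
              simp only [Finset.mul_sum, Finset.sum_mul, mul_assoc]
            rw [e, T.n2_mul_unitary (Unitary.star_mem (hh _)), T.n2_unitary_mul (hh _)]
            simpa only [add_right_inj] using hC (t + j) (by omega) (t + k) (by omega)
      _ = 2 * s ^ 2 * (m * n + 3 * m * m) := by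
          simp only [← Finset.mul_sum, Finset.sum_add_distrib, Finset.sum_ite_eq, Finset.sum_const,
            Finset.card_range, nsmul_eq_mul]
          rw [Finset.sum_congr rfl fun i hi => if_pos hi]
          simp only [Finset.sum_const, Finset.card_range, nsmul_eq_mul]; ring
      _ ≤ _ := by
          have : (m : ℝ) ≤ n := by exact_mod_cast (by omega : m ≤ n)
          have h3 : (m : ℝ) * m ≤ m * n := by gcongr
          nlinarith [sq_nonneg s]
  refine (pow_le_pow_iff_left₀ (n2_nonneg _ _) (by positivity) two_ne_zero).1 ?_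
  rw [pi_n2_sq]
  have h3 := pow_le_pow_left₀ (Finset.sum_nonneg fun j _ => Finset.sum_nonneg fun k _ =>
    T.n2_nonneg _) h2 2
  simp only [Finset.mul_sum, Finset.sum_mul, mul_smul_comm, smul_mul_assoc] at h1 ⊢
  nlinarith [sq_nonneg (m * (s ^ 2 * n))]

/-- The remainder estimate. -/
theorem rem_ok {h : ℕ → A} (hh : ∀ j, h j ∈ unitary A) {Y : ι → A} (hY : ∀ α, star (Y α) = -Y α)
    {K : ℕ} {s μ : ℝ} (hs : 0 < s)
    (hC : ∀ j < 2 ^ K, ∀ k < 2 ^ K, T.n2 (∑ α, Y α * (star (h j) * h k) * Y α) ≤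
      2 * s ^ 2 * ((if j = k then ((2 ^ K : ℕ) : ℝ) else 0) + 3))
    (hμ : 0 < μ) (hμ1 : 25 * μ ≤ 1) (hμ4 : μ ^ 4 = 2 ^ K * (16 * s ^ 2 * 2 ^ K))
    {c : (ι → Bool) → A} (hc : ∀ ε, c ε ∈ unitary A)
    (hr : ∀ ε, ∃ r, ‖r‖ ≤ 1 ∧ c ε = 1 + (∑ α, sg (ε α) • Y α) +
      (∑ α, sg (ε α) • Y α) * r * (∑ α, sg (ε α) • Y α))
    {U x : A} (hU : ‖U‖ ≤ 1) (hx : ‖x‖ ≤ 1) {a : (ι → Bool) → A}
    (ha : av (fun ε => T.n2 (star (a ε) * a ε) ^ 2) ≤ 3) :
    ‖av fun ε => T.τ (U * a ε * x * (oprod (fun j => h j * c ε * star (h j)) 0 (2 ^ K) - 1 -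
      ∑ j ∈ Finset.range (2 ^ K), h j * (∑ α, sg (ε α) • Y α) * star (h j)))‖ ≤ 10 * μ ^ 3 ∧
    av (fun ε : ι → Bool => T.n2 (∑ α, sg (ε α) • Y α) ^ 2) ≤ 16 * s ^ 2 * 2 ^ K := by
  let y : ℕ → (ι → Bool) → A := fun j ε => h j * (∑ α, sg (ε α) • Y α) * star (h j)
  let z : ℕ → (ι → Bool) → A := fun j ε => h j * c ε * star (h j)
  have hy : ∀ j, star (y j) = -y j := fun j => by
    funext ε
    simp only [y, Pi.star_apply, Pi.neg_apply, star_mul, star_star, star_sum, star_smul, star_sg,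
      hY, smul_neg, Finset.sum_neg_distrib, mul_assoc, neg_mul, mul_neg]
  have hz : ∀ j, z j ∈ unitary ((ι → Bool) → A) := fun j => by
    have := fun ε => mul_mem (mul_mem (hh j) (hc ε)) (Unitary.star_mem (hh j))
    exact ⟨funext fun ε => (this ε).1, funext fun ε => (this ε).2⟩
  choose r hr1 hr2 using hr
  have hq := T.quad_ok hh hY (n := 2 ^ K) (by positivity) hC
  push_cast at hq
  have h1 : ∀ t m, t + m ≤ 2 ^ K →
      (T.pi (ι → Bool)).n2 (osum y t m * osum y t m) ≤ m * (16 * s ^ 2 * 2 ^ K) := fun t m htm => by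
    convert hq t m htm _ subset_rfl using 2
    funext ε
    simp only [osum, Pi.mul_apply, Finset.sum_apply, Finset.sum_mul_sum, Finset.sum_product, y]
  have h2 : ∀ t m, t + m ≤ 2 ^ K →
      (T.pi (ι → Bool)).n2 (oarea y t m) ≤ m * (16 * s ^ 2 * 2 ^ K) := fun t m htm => by
    convert hq t m htm ((Finset.range m ×ˢ Finset.range m).filter fun p => p.1 < p.2)
      (Finset.filter_subset _ _) using 2
    funext ε
    simp only [oarea, osum, Pi.mul_apply, Finset.sum_apply, Finset.sum_filter,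
      Finset.sum_product_right, y]
    refine Finset.sum_congr rfl fun k hk => ?_
    rw [Finset.sum_mul, ← Finset.sum_filter]
    refine Finset.sum_congr ?_ fun _ _ => rfl
    ext j
    simp only [Finset.mem_range, Finset.mem_filter] at hk ⊢
    omega
  obtain ⟨d1, d2⟩ := (T.pi (ι → Bool)).sew_fin (y := y) (z := z) (k := K) (by positivity) hy hz
    (fun j => ⟨fun ε => h j * r ε * star (h j), by
      refine (pi_norm_le_iff_of_nonneg zero_le_one).2 fun ε => ?_
      rw [CStarRing.norm_mul_mem_unitary _ (Unitary.star_mem (hh j)),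
        CStarRing.norm_mem_unitary_mul _ (hh j)]
      exact hr1 ε, by
      funext ε
      simp only [y, z, Pi.add_apply, Pi.mul_apply, Pi.one_apply]
      rw [hr2 ε]
      have e1 := Unitary.star_mul_self_of_mem (hh j)
      have e2 := Unitary.mul_star_self_of_mem (hh j)
      generalize ∑ α, sg (ε α) • Y α = W
      simp only [mul_add, add_mul, mul_one, e2, mul_assoc]
      rw [← mul_assoc (star (h j)), e1, one_mul, ← mul_assoc (star (h j)), e1, one_mul]⟩)
    h1 h2 hμ hμ1 hμ4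
  constructor
  · have hx' : ‖(fun _ => x : (ι → Bool) → A)‖ ≤ 1 :=
      (pi_norm_le_iff_of_nonneg zero_le_one).2 fun _ => hx
    have hU' : ‖(fun _ => U : (ι → Bool) → A)‖ ≤ 1 :=
      (pi_norm_le_iff_of_nonneg zero_le_one).2 fun _ => hU
    have d3 := ((d1.mul_left (by positivity) hx').trunc (by positivity) (inv_pos.2 hμ) a) fun _ => U
    have d4 := ((T.pi (ι → Bool)).n2_mul_le (fun _ => x) _).trans
      (mul_le_mul hx' d2 (n2_nonneg _ _) zero_le_one)
    have d5 : (T.pi (ι → Bool)).n2 (star a * a) ≤ 2 := by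
      refine (pow_le_pow_iff_left₀ (n2_nonneg _ _) (by positivity) two_ne_zero).1 ?_
      rw [pi_n2_sq]
      exact ha.trans (by norm_num)
    have d6 : (T.pi (ι → Bool)).n2 (star a * a) / μ⁻¹ *
        (T.pi (ι → Bool)).n2 ((fun _ => x) * (oprod z 0 (2 ^ K) - 1 - osum y 0 (2 ^ K))) ≤
        2 / μ⁻¹ * (1 * (7 / 2 * μ ^ 2)) := by gcongr; exact n2_nonneg _ _
    have d7 : μ⁻¹ * (3 * μ ^ 4) + 2 / μ⁻¹ * (1 * (7 / 2 * μ ^ 2)) = 10 * μ ^ 3 := by
      field_simp; ring
    have d8 := d3.trans (mul_le_mul hU' ((add_le_add_right d6 _).trans d7.le)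
      (add_nonneg (by positivity) (mul_nonneg (div_nonneg (n2_nonneg _ _) (by positivity))
        (n2_nonneg _ _))) zero_le_one)
    rw [one_mul, pi_τ] at d8
    refine le_trans (le_of_eq ?_) d8
    congr 2
    funext ε
    simp only [Pi.mul_apply, Pi.sub_apply, oprod_apply, Pi.one_apply, osum, Finset.sum_apply,
      zero_add, y, z, mul_assoc]
  · have a1 := h1 0 1 (by simpa using Nat.one_le_two_pow)
    simp only [osum, Finset.sum_range_one, add_zero, Nat.cast_one, one_mul] at a1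
    have a2 := ((T.pi (ι → Bool)).n2_sq_skew (hy 0)).trans a1
    rw [pi_n2_sq] at a2
    simpa only [y, T.n2_conj (hh 0)] using a2

end TS

end Crest.Agent.R95
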