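import Crest.Agent.R95.Key2

/-! Row 95: the key lemma, assembly. -/

set_option autoImplicit false
set_option linter.unusedSectionVars false

open scoped InnerProductSpace ComplexOrder
open Crest.Agent.R124

namespace Crest.Agent.R95

variable {A : Type*} [CStarAlgebra A]

namespace TS

variable (T : TS A) {ι : Type} [Fintype ι] [DecidableEq ι] [Nonempty ι]

theorem sum_eq_av {V : Type*} [AddCommGroup V] [Module ℝ V] {c : ℝ}
    (hc : c ^ 2 * Fintype.card ι = 1) (f : ι → V) : (c ^ 2) • ∑ α, f α = av f := by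
  rw [av, eq_inv_of_mul_eq_one_left hc]

theorem cov_ok {h : ℕ → A} (hh : ∀ j, h j ∈ unitary A) {d : ι → A} (n : ℕ) {s c ε : ℝ}
    (hc : c ^ 2 * Fintype.card ι = 1) (hε : 0 ≤ ε) (hεn : 2 * n ^ 2 * ε ≤ 1) {j k : ℕ}
    (h1 : ∀ i < n, ∀ i' < n, T.n2 (av fun α => d α * (h i * (star (h j) * h k) * star (h i')) * d α) ≤
      2 * ((if Exc j k i i' then 1 else ε) + ε)) :
    T.n2 (∑ α, (s * c) • (∑ i ∈ Finset.range n, star (h i) * d α * h i) * (star (h j) * h k) *
      (s * c) • (∑ i ∈ Finset.range n, star (h i) * d α * h i)) ≤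
      2 * s ^ 2 * ((if j = k then (n : ℝ) else 0) + 3) := by
  have e : (∑ α, (s * c) • (∑ i ∈ Finset.range n, star (h i) * d α * h i) * (star (h j) * h k) *
      (s * c) • (∑ i ∈ Finset.range n, star (h i) * d α * h i)) =
      (s ^ 2) • ∑ i ∈ Finset.range n, ∑ i' ∈ Finset.range n, star (h i) *
        (av fun α => d α * (h i * (star (h j) * h k) * star (h i')) * d α) * h i' := by
    have e0 : s * c * (s * c) = s ^ 2 * c ^ 2 := by ring
    simp only [← sum_eq_av hc, smul_mul_assoc, mul_smul_comm, smul_smul, ← Finset.smul_sum, e0]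
    congr 1
    simp only [Finset.sum_mul, Finset.mul_sum, mul_assoc]
    rw [Finset.sum_comm, Finset.sum_comm (s := Finset.range n) (t := Finset.range n)]
    exact Finset.sum_congr rfl fun i _ => Finset.sum_comm
  rw [e, n2_rsmul, abs_of_nonneg (sq_nonneg s), mul_comm 2, mul_assoc]
  refine mul_le_mul_of_nonneg_left ?_ (sq_nonneg s)
  refine (T.n2_sum_le _ _).trans ((Finset.sum_le_sum fun i _ => T.n2_sum_le _ _).trans ?_)
  calc _ ≤ ∑ i ∈ Finset.range n, ∑ i' ∈ Finset.range n,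
        2 * ((if Exc j k i i' then 1 else ε) + ε) :=
        Finset.sum_le_sum fun i hi => Finset.sum_le_sum fun i' hi' => by
          rw [T.n2_mul_unitary (hh _), T.n2_unitary_mul (Unitary.star_mem (hh _))]
          exact h1 i (Finset.mem_range.1 hi) i' (Finset.mem_range.1 hi')
    _ ≤ _ := by
        simp only [← Finset.mul_sum, Finset.sum_add_distrib, Finset.sum_const, Finset.card_range,
          nsmul_eq_mul]
        have := exc_count n j k hε
        nlinarith

theorem first_ok {h : ℕ → A} (hh : ∀ j, h j ∈ unitary A) {w d : ι → A} {U x : A} (n : ℕ)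
    {s c ε : ℝ} {t : ℂ} (hs : 0 ≤ s) (hc : c ^ 2 * Fintype.card ι = 1) (hε : 0 ≤ ε)
    (h1 : av (fun α => T.τ (U * w α * x * d α)) = t)
    (h2 : ∀ j < n, ∀ i < n, j ≠ i → ‖av fun α =>
      T.τ (U * w α * x * (h j * star (h i) * d α * star (h j * star (h i))))‖ ≤ 2 * ε) :
    s * (n * t.re - n ^ 2 * (2 * ε)) ≤ (av fun e : ι → Bool => T.τ (U * (∑ α, sg (e α) • c • w α) * x *
      ∑ j ∈ Finset.range n, h j * (∑ α, sg (e α) •
        (s * c) • (∑ i ∈ Finset.range n, star (h i) * d α * h i)) * star (h j))).re := by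
  have e1 : ∀ e : ι → Bool, T.τ (U * (∑ α, sg (e α) • c • w α) * x *
      ∑ j ∈ Finset.range n, h j * (∑ α, sg (e α) •
        (s * c) • (∑ i ∈ Finset.range n, star (h i) * d α * h i)) * star (h j)) =
      ∑ α, ∑ β, sg (e α) * sg (e β) * T.τ (U * (c • w α) * x * ∑ j ∈ Finset.range n, h j *
        ((s * c) • (∑ i ∈ Finset.range n, star (h i) * d β * h i)) * star (h j)) := fun e => by
    have aux : ∀ (Y W : ι → A), T.τ (U * (∑ α, sg (e α) • W α) * x *
        ∑ j ∈ Finset.range n, h j * (∑ α, sg (e α) • Y α) * star (h j)) =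
        ∑ α, ∑ β, sg (e α) * sg (e β) *
          T.τ (U * W α * x * ∑ j ∈ Finset.range n, h j * Y β * star (h j)) := fun Y W => by
      have : ∑ j ∈ Finset.range n, h j * (∑ α, sg (e α) • Y α) * star (h j) =
          ∑ β, sg (e β) • ∑ j ∈ Finset.range n, h j * Y β * star (h j) := by
        simp only [Finset.mul_sum, Finset.sum_mul, Finset.smul_sum, mul_smul_comm, smul_mul_assoc]
        exact Finset.sum_comm
      rw [this]
      have aux2 : ∀ Z : ι → A, T.τ (U * (∑ α, sg (e α) • W α) * x * ∑ β, sg (e β) • Z β) =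
          ∑ α, ∑ β, sg (e α) * sg (e β) * T.τ (U * W α * x * Z β) := fun Z => by
        simp only [Finset.mul_sum, Finset.sum_mul, mul_smul_comm, smul_mul_assoc, map_sum, map_smul,
          smul_eq_mul]
        rw [Finset.sum_comm]
        refine Finset.sum_congr rfl fun _ _ => Finset.sum_congr rfl fun _ _ => by ring
      exact aux2 _
    exact aux _ _
  simp only [e1, av_lin2]
  have e2 : ∑ α, T.τ (U * (c • w α) * x * ∑ j ∈ Finset.range n, h j *
      ((s * c) • (∑ i ∈ Finset.range n, star (h i) * d α * h i)) * star (h j)) =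
      s • ∑ j ∈ Finset.range n, ∑ i ∈ Finset.range n, av fun α =>
        T.τ (U * w α * x * (h j * star (h i) * d α * star (h j * star (h i)))) := by
    simp only [← sum_eq_av hc, smul_mul_assoc, mul_smul_comm, smul_smul, ← Finset.smul_sum,
      τ_rsmul, ← Finset.mul_sum, Complex.real_smul]
    have e0 : ((s * c * c : ℝ) : ℂ) = s * ((c ^ 2 : ℝ) : ℂ) := by push_cast; ring
    rw [e0, mul_assoc]
    congr 2
    simp only [Finset.sum_mul, Finset.mul_sum, map_sum, star_mul, star_star, mul_assoc]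
    rw [Finset.sum_comm]
    exact Finset.sum_congr rfl fun i _ => Finset.sum_comm
  rw [e2, Complex.smul_re, smul_eq_mul, Complex.re_sum]
  refine mul_le_mul_of_nonneg_left ?_ hs
  calc _ = ∑ _j ∈ Finset.range n, (t.re - n * (2 * ε)) := by
        simp only [Finset.sum_const, Finset.card_range, nsmul_eq_mul]; ring
    _ ≤ _ := Finset.sum_le_sum fun j hj => ?_
  rw [Complex.re_sum]
  calc _ = ∑ i ∈ Finset.range n, ((if j = i then t.re else 0) - 2 * ε) := by
        simp only [Finset.sum_sub_distrib, Finset.sum_ite_eq, if_pos hj, Finset.sum_const,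
          Finset.card_range, nsmul_eq_mul]
    _ ≤ _ := Finset.sum_le_sum fun i hi => ?_
  split_ifs with hji
  · subst hji
    simp only [Unitary.mul_star_self_of_mem (hh j), one_mul, star_one, mul_one, h1]
    linarith
  · have := (Complex.abs_re_le_norm _).trans
      (h2 j (Finset.mem_range.1 hj) i (Finset.mem_range.1 hi) hji)
    linarith [(abs_le.1 this).1]

variable {P : StarSubalgebra ℂ A}

set_option maxHeartbeats 1000000 in
theorem key (hD : T.Dix P) (hS : T.Sym P) {u x q : A} (hu : u ∈ unitary A) (hx : ‖x‖ ≤ 1)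
    (hq : q ∈ unitary A) {μ η : ℝ} (hμ : 0 < μ) (hμ1 : 25 * μ ≤ 1) (hη : 0 < η) :
    ∃ v ∈ unitary A, T.n2 (v - u) < η ∧ ∃ (n : ℕ) (a : ℕ → A) (a0 : A), (∀ t, a t ∈ P) ∧ a0 ∈ P ∧
      μ ^ 2 / 4 * (T.τ (x * q)).re - 13 * μ ^ 3 <
        (T.τ (x * (oprod (fun t => v * a t) 0 n * a0))).re -
          μ ^ 3 * T.n2 (oprod (fun t => v * a t) 0 n * a0) ^ 2 := by
  classical
  set L : ℝ := 2 * (1 / μ ^ 3 + 2) / η ^ 2 with hL
  have hL0 : 0 < L := by positivity
  obtain ⟨K, hK⟩ := pow_unbounded_of_one_lt (2 * L * μ + 1 / μ) (one_lt_two (α := ℝ))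
  have hn0 : (0 : ℝ) < 2 ^ K := by positivity
  set ε : ℝ := 1 / (2 * (2 ^ K) ^ 2) with hεdef
  have hε : 0 < ε := by positivity
  obtain ⟨a, ha, hlet⟩ := T.letters hS hu (2 ^ K) hε
  have hz : ∀ t, u * a t ∈ unitary A := fun t => mul_mem hu (ha t).2
  let h : ℕ → A := oprod (fun t => u * a t) 0
  have hh : ∀ j, h j ∈ unitary A := oprod_mem hz 0
  have hU := hh (2 ^ K)
  set U := h (2 ^ K) with hUdef
  let g : (ℕ × ℕ) × ℕ × ℕ → A := fun p => h p.2.1 * (star (h p.1.1) * h p.1.2) * star (h p.2.2)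
  let D := (Finset.range (2 ^ K) ×ˢ Finset.range (2 ^ K)) ×ˢ
    (Finset.range (2 ^ K) ×ˢ Finset.range (2 ^ K))
  obtain ⟨ι, _, _, w, hw, hF, h0⟩ := hD
    (D.image (fun p => star U * g p * U) ∪ D.image fun p => star q * g p * q) ε hε
  have hcard : (0 : ℝ) < Fintype.card ι := by exact_mod_cast Fintype.card_pos
  set c : ℝ := (√(Fintype.card ι))⁻¹ with hcdef
  have hc : c ^ 2 * Fintype.card ι = 1 := by
    rw [hcdef, inv_pow, Real.sq_sqrt hcard.le, inv_mul_cancel₀ hcard.ne']
  set s : ℝ := μ ^ 2 / 4 / 2 ^ K with hsdef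
  have hs : 0 < s := by positivity
  let d : ι → A := fun α => star (U * w α * star q) - U * w α * star q
  let Y : ι → A := fun α => (s * c) • (∑ i ∈ Finset.range (2 ^ K), star (h i) * d α * h i)
  have hd : ∀ α, star (d α) = -d α := fun α => by simp only [d, star_sub, star_star, neg_sub]
  have hY : ∀ α, star (Y α) = -Y α := fun α => by
    simp only [Y, star_smul, star_trivial, star_sum, star_mul, star_star, hd, mul_assoc, neg_mul,
      mul_neg, Finset.sum_neg_distrib, smul_neg]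
  have hτg : ∀ j < 2 ^ K, ∀ k < 2 ^ K, ∀ i < 2 ^ K, ∀ i' < 2 ^ K,
      ‖T.τ (g ((j, k), (i, i')))‖ ≤ if Exc j k i i' then 1 else ε := by
    intro j hj k hk i hi i' hi'
    split_ifs with hE
    · exact (T.norm_τ_le _).trans (norm_unitary_le (mul_mem (mul_mem (hh _)
        (mul_mem (Unitary.star_mem (hh _)) (hh _))) (Unitary.star_mem (hh _))))
    · have := hlet j hj k hk i hi i' hi' hE
      simp only [g]
      rw [mul_assoc, T.comm, mul_assoc]
      exact this
  have hmem : ∀ j < 2 ^ K, ∀ k < 2 ^ K, ∀ i < 2 ^ K, ∀ i' < 2 ^ K, ((j, k), (i, i')) ∈ D := by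
    intro j hj k hk i hi i' hi'
    simp [D, hj, hk, hi, hi']
  have hC : ∀ j < 2 ^ K, ∀ k < 2 ^ K, T.n2 (∑ α, Y α * (star (h j) * h k) * Y α) ≤
      2 * s ^ 2 * ((if j = k then ((2 ^ K : ℕ) : ℝ) else 0) + 3) := fun j hj k hk =>
    T.cov_ok hh (2 ^ K) hc hε.le (by rw [hεdef]; push_cast; field_simp; exact le_rfl)
      fun i hi i' hi' => by
        have m := hmem j hj k hk i hi i' hi'
        refine (T.cov_term hU hq h0
          (hF _ (Finset.mem_union_left _ (Finset.mem_image_of_mem _ m))).2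
          (hF _ (Finset.mem_union_right _ (Finset.mem_image_of_mem _ m))).1).trans ?_
        linarith [hτg j hj k hk i hi i' hi']
  have hyskew : ∀ e : ι → Bool, star (∑ α, sg (e α) • Y α) = -∑ α, sg (e α) • Y α := fun e => by
    simp only [star_sum, star_smul, star_sg, hY, smul_neg, Finset.sum_neg_distrib]
  choose cy hcy1 hcy2 hcy3 using fun e => cayley (hyskew e)
  let a0 : (ι → Bool) → A := fun e => ∑ α, sg (e α) • c • w α
  obtain ⟨r1, r2⟩ := T.rem_ok hh hY hs hC hμ hμ1 (by rw [hsdef]; field_simp; ring) hcy1 hcy3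
    (norm_unitary_le hU) hx (T.four_bound w (fun α => (hw α).2) c hc)
  have f1 := T.first_ok hh (w := w) (d := d) (U := U) (x := x) (2 ^ K) (t := T.τ (x * q)) hs.le hc
    hε.le (by
      have := T.first_term (w := w) (U := U) (q := q) (x := x) (γ := 1) fun x => (h0 x).1
      simp only [one_mul, star_one, mul_one, Unitary.star_mul_self_of_mem hU,
        Unitary.star_mul_self_of_mem (hw _).2, av_const] at this
      exact this) fun j hj i hi hji => by
      rw [T.first_term fun x => (h0 x).1]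
      have m := hmem 0 (by positivity) 0 (by positivity) i hi j hj
      have a1 := T.n2_le_of_sub (hF _ (Finset.mem_union_left _ (Finset.mem_image_of_mem _ m))).2
      have a2 := hτg 0 (by positivity) 0 (by positivity) i hi j hj
      rw [if_neg (by unfold Exc; omega)] at a2
      rw [T.τ_conj' hU] at a1
      have e : g ((0, 0), (i, j)) = star (h j * star (h i)) := by
        simp only [g, Unitary.star_mul_self_of_mem (hh 0), mul_one, star_mul, star_star]
      rw [e] at a1 a2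
      have a3 : T.n2 (x * (h j * star (h i)) * q) ≤ 1 := by
        rw [T.n2_mul_unitary hq, T.n2_mul_unitary (mul_mem (hh j) (Unitary.star_mem (hh i)))]
        exact (T.n2_le_norm x).trans hx
      refine (T.cs _ _).trans ((mul_le_of_le_one_left (T.n2_nonneg _) a3).trans ?_)
      linarith
  have f0 : av (fun e => T.τ (U * a0 e * x)) = 0 := by
    simp only [a0, Finset.mul_sum, Finset.sum_mul, mul_smul_comm _ U, smul_mul_assoc (sg _),
      map_sum, map_smul, smul_eq_mul, av_lin1]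
  have f2 : av (fun e => T.n2 (a0 e) ^ 2) = 1 := by
    have := chaos1 (fun α => T.v (c • w α)) Finset.univ 0
    simp only [zero_add, ← map_smul, ← map_sum, norm_zero] at this
    refine this.trans ?_
    have e : ∀ α, ‖T.v (c • w α)‖ ^ 2 = c ^ 2 := fun α => by
      change T.n2 _ ^ 2 = _
      rw [n2_rsmul, T.n2_unitary (hw α).2, mul_one, sq_abs]
    simp only [e, Finset.sum_const, Finset.card_univ, nsmul_eq_mul]
    linarith
  let W : (ι → Bool) → A := fun e => oprod (fun t => cy e * u * a t) 0 (2 ^ K) * a0 e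
  have hW1 : ∀ e, T.n2 (W e) = T.n2 (a0 e) := fun e =>
    T.n2_unitary_mul (oprod_mem (fun t => mul_mem (mul_mem (hcy1 e) hu) (ha t).2) _ _) _
  have hW2 : ∀ e, T.τ (x * W e) = T.τ (U * a0 e * x) +
      T.τ (U * a0 e * x * ∑ j ∈ Finset.range (2 ^ K), h j * (∑ α, sg (e α) • Y α) * star (h j)) +
      T.τ (U * a0 e * x * (oprod (fun j => h j * cy e * star (h j)) 0 (2 ^ K) - 1 -
        ∑ j ∈ Finset.range (2 ^ K), h j * (∑ α, sg (e α) • Y α) * star (h j))) := fun e => by
    rw [← map_add, ← map_add]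
    simp only [W]
    rw [word_eq hz, mul_assoc, ← mul_assoc x, T.comm]
    congr 1
    noncomm_ring
  obtain ⟨e, he⟩ := exists_av_le fun e => (T.τ (x * W e)).re - μ ^ 3 * T.n2 (W e) ^ 2 -
    L * T.n2 (∑ α, sg (e α) • Y α) ^ 2
  have g1 := av_rsmul (μ ^ 3) fun e => T.n2 (a0 e) ^ 2
  have g2 := av_rsmul L fun e : ι → Bool => T.n2 (∑ α, sg (e α) • Y α) ^ 2
  simp only [smul_eq_mul] at g1 g2
  rw [av_sub, av_sub, ← re_av] at he
  simp only [hW1] at he
  rw [g1, g2, f2] at he
  have g3 := congrArg av (funext hW2)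
  rw [av_add, av_add, f0] at g3
  rw [g3, zero_add, Complex.add_re] at he
  have g4 := (abs_le.1 ((Complex.abs_re_le_norm _).trans r1)).1
  have g5 : s * (((2 ^ K : ℕ) : ℝ) * (T.τ (x * q)).re - ((2 ^ K : ℕ) : ℝ) ^ 2 * (2 * ε)) =
      μ ^ 2 / 4 * (T.τ (x * q)).re - μ ^ 2 / 4 / 2 ^ K := by
    rw [hsdef, hεdef]; push_cast; field_simp
  have g6 : μ ^ 2 / 4 / 2 ^ K ≤ μ ^ 3 / 2 := by
    have : 1 / μ ≤ 2 ^ K := by nlinarith
    rw [div_le_iff₀ hμ] at this
    rw [div_le_iff₀ hn0]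
    nlinarith [pow_pos hμ 2]
  have g7 : L * (16 * s ^ 2 * 2 ^ K) ≤ μ ^ 3 / 2 := by
    have e1 : L * (16 * s ^ 2 * 2 ^ K) = L * μ ^ 4 / 2 ^ K := by rw [hsdef]; field_simp; ring
    have : 2 * L * μ ≤ 2 ^ K := by have : 0 < 1 / μ := by positivity
                                   linarith
    rw [e1, div_le_iff₀ hn0]
    nlinarith [pow_pos hμ 3]
  have g8 := mul_le_mul_of_nonneg_left r2 hL0.le
  rw [g5] at f1
  have g9 : μ ^ 2 / 4 * (T.τ (x * q)).re - 12 * μ ^ 3 ≤ (T.τ (x * W e)).re -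
      μ ^ 3 * T.n2 (a0 e) ^ 2 - L * T.n2 (∑ α, sg (e α) • Y α) ^ 2 := by linarith
  refine ⟨cy e * u, mul_mem (hcy1 e) hu, ?_, 2 ^ K, a, a0 e, fun t => (ha t).1,
    sum_mem fun α _ => SMulMemClass.smul_mem _ ?_, ?_⟩
  · obtain ⟨g', hg1, hg2⟩ := hcy2 e
    have b1 : T.n2 (cy e * u - u) ≤ T.n2 (∑ α, sg (e α) • Y α) := by
      rw [← sub_one_mul, T.n2_mul_unitary hu, hg2, add_sub_cancel_left]
      exact (T.n2_mul_le' _ _).trans (mul_le_of_le_one_right (T.n2_nonneg _) hg1)
    refine lt_of_le_of_lt b1 (lt_of_pow_lt_pow_left₀ 2 hη.le ?_)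
    have b2 : (T.τ (x * W e)).re ≤ T.n2 (a0 e) := by
      refine (Complex.re_le_norm _).trans ((T.cs _ _).trans ?_)
      rw [hW1]
      exact mul_le_of_le_one_left (T.n2_nonneg _) ((T.n2_le_norm x).trans hx)
    have b3 : -1 ≤ (T.τ (x * q)).re := by
      refine (abs_le.1 ((Complex.abs_re_le_norm _).trans ((T.norm_τ_le_n2 _).trans ?_))).1
      rw [T.n2_mul_unitary hq]; exact (T.n2_le_norm x).trans hx
    have b4 : T.n2 (a0 e) - μ ^ 3 * T.n2 (a0 e) ^ 2 ≤ 1 / μ ^ 3 := by
      have hp := pow_pos hμ 3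
      rw [le_div_iff₀ hp]
      nlinarith [sq_nonneg (μ ^ 3 * T.n2 (a0 e) - 1 / 2)]
    have b5 : μ ^ 2 ≤ 1 := pow_le_one₀ hμ.le (by linarith)
    have b6 : μ ^ 3 ≤ 1 / 25 := by nlinarith
    have b7 : L * T.n2 (∑ α, sg (e α) • Y α) ^ 2 ≤ 1 / μ ^ 3 + 2 := by nlinarith
    have b8 : L * η ^ 2 = 2 * (1 / μ ^ 3 + 2) := by rw [hL]; field_simp
    have b9 : 0 < 1 / μ ^ 3 + 2 := by positivity
    exact lt_of_mul_lt_mul_left (by linarith) hL0.le
  · rw [← Complex.coe_smul]; exact SMulMemClass.smul_mem _ (hw α).1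
  · change _ < (T.τ (x * W e)).re - μ ^ 3 * T.n2 (W e) ^ 2
    rw [hW1]
    have := mul_nonneg hL0.le (sq_nonneg (T.n2 (∑ α, sg (e α) • Y α)))
    linarith [pow_pos hμ 3]

end TS

end Crest.Agent.R95
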