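import Crest.Agent.R95.Tr
import Crest.Agent.R124.Types

/-! Row 95, task A: projections in a finite factor. -/

set_option autoImplicit false
set_option linter.unusedSectionVars false

open scoped InnerProductSpace ComplexOrder
open Crest.OpAlg Crest.Agent.R124

namespace Crest.Agent.R95

variable {H : Type*} [NormedAddCommGroup H] [InnerProductSpace ℂ H] [CompleteSpace H]
variable {ξ : ℕ → H} {P M : VonNeumannAlgebra H}

/-- No minimal projection. -/
def NoMin (P : VonNeumannAlgebra H) : Prop :=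
  ∀ e ∈ P, IsStarProjection e → e ≠ 0 →
    ∃ f ∈ P, IsStarProjection f ∧ e * f = f ∧ f ≠ 0 ∧ f ≠ e

/-- If `e t e = t` is self-adjoint and every `e * sp t s` is `0` or `e`, then `t` is a multiple
of `e`. -/
theorem scalar_of_sp {e t : H →L[ℂ] H} (he : IsStarProjection e) (ht : IsSelfAdjoint t)
    (het : e * t = t) (h : ∀ s : ℝ, e * sp t s = 0 ∨ e * sp t s = e) : ∃ c : ℝ, t = c • e := by
  have hc : IsClosed ((ℝ ∙ e : Submodule ℝ (H →L[ℂ] H)) : Set (H →L[ℂ] H)) :=
    Submodule.closed_of_finiteDimensional _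
  have : t ∈ (ℝ ∙ e : Submodule ℝ (H →L[ℂ] H)) := by
    refine hc.closure_subset (Metric.mem_closure_iff.2 fun ε hε => ?_)
    obtain ⟨n, c, s, c₀, h1⟩ := exists_step ht (half_pos hε)
    have hm : e * (c₀ • (1 : H →L[ℂ] H) + ∑ i, c i • sp t (s i)) ∈
        (ℝ ∙ e : Submodule ℝ (H →L[ℂ] H)) := by
      rw [mul_add, Finset.mul_sum]
      refine add_mem ?_ (sum_mem fun i _ => ?_)
      · rw [mul_smul_comm, mul_one]
        exact Submodule.smul_mem _ _ (Submodule.mem_span_singleton_self e)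
      · rw [mul_smul_comm]
        refine Submodule.smul_mem _ _ ?_
        rcases h (s i) with h2 | h2 <;> rw [h2]
        · exact zero_mem _
        · exact Submodule.mem_span_singleton_self e
    refine ⟨_, hm, ?_⟩
    rw [dist_eq_norm]
    nth_rewrite 1 [← het]
    rw [← mul_sub]
    refine (norm_mul_le _ _).trans_lt ?_
    have := mul_le_mul he.norm_le h1 (norm_nonneg _) zero_le_one
    linarith
  obtain ⟨c, hc⟩ := Submodule.mem_span_singleton.1 this
  exact ⟨c, hc.symm⟩

/-- In a factor two nonzero projections are linked by a nonzero partial isometry. -/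
theorem exists_link (hP : IsFactor P) {e f : H →L[ℂ] H} (he : IsStarProjection e) (heP : e ∈ P)
    (hf : IsStarProjection f) (hfP : f ∈ P) (he0 : e ≠ 0) (hf0 : f ≠ 0) :
    ∃ v ∈ P, v ≠ 0 ∧ PI v ∧ f * v = v ∧ v * e = v := by
  obtain ⟨z, hz, -, h1, h2⟩ := exists_csupp P heP
  obtain ⟨c, rfl⟩ := hP z hz.1 hz.2
  by_cases h : ∀ y ∈ P, f * y * e = 0
  · have := h2 f h
    rw [mul_smul_comm, mul_one, smul_eq_zero] at this
    rcases this with rfl | h3
    · exact absurd (by simpa using h1.symm) he0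
    · exact absurd h3 hf0
  · push Not at h
    obtain ⟨y, hy, h3⟩ := h
    exact exists_pi P he heP hf hfP hy h3

theorem cen_proj (hP : IsFactor P) {z : H →L[ℂ] H} (hz : Cen P z) (hzp : IsStarProjection z) :
    z = 0 ∨ z = 1 := by
  by_contra h
  push Not at h
  obtain ⟨v, hv, h0, -, h1, h2⟩ := exists_link hP hzp hz.1 hzp.one_sub (sub_mem (one_mem P) hz.1)
    h.1 fun h0 => h.2 (sub_eq_zero.1 h0).symm
  exact h0 (by rw [← h1, ← h2, ← hz.2 v hv, ← mul_assoc, hzp.one_sub_mul_self, zero_mul])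

/-- Comparison in a factor. -/
theorem sub_total (hP : IsFactor P) {e f : H →L[ℂ] H} (he : IsStarProjection e) (heP : e ∈ P)
    (hf : IsStarProjection f) (hfP : f ∈ P) : Sub P e f ∨ Sub P f e := by
  obtain ⟨z, hz, hzp, h1, h2⟩ := comparison P he heP hf hfP
  rcases cen_proj hP hz hzp with rfl | rfl
  · exact Or.inr (by simpa using h2)
  · exact Or.inl (by simpa using h1)

/-- The corner of a minimal projection is one-dimensional. -/
theorem scalar_of_min {e : H →L[ℂ] H} (he : IsStarProjection e) (heP : e ∈ P)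
    (h : ∀ f ∈ P, IsStarProjection f → e * f = f → f = 0 ∨ f = e) {x : H →L[ℂ] H} (hx : x ∈ P)
    (h1 : e * x = x) (h2 : x * e = x) : ∃ c : ℂ, x = c • e := by
  have key : ∀ t ∈ P, IsSelfAdjoint t → e * t = t → ∃ c : ℝ, t = c • e := fun t ht hs het =>
    scalar_of_sp he hs het fun s => by
      have hc : e * t = t * e := by
        rw [het]; simpa [he.isSelfAdjoint.star_eq, hs.star_eq] using (congrArg star het).symm
      exact h _ (mul_mem heP (sp_mem hs ht s)) (he.mul (sp_proj _ _) (sp_comm hs hc s))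
        (by rw [← mul_assoc, he.isIdempotentElem.eq])
  have h3 := proj_mul_star he h2
  obtain ⟨a, ha⟩ := key _ (by rw [realPart_apply_coe]; exact rsmul_mem _ (add_mem hx (star_mem hx)))
    (realPart x).2 (by simp only [realPart_apply_coe, mul_smul_comm, mul_add, h1, h3])
  obtain ⟨b, hb⟩ := key _ (by
    rw [imaginaryPart_apply_coe]; exact csmul_mem _ (rsmul_mem _ (sub_mem hx (star_mem hx))))
    (imaginaryPart x).2 (by simp only [imaginaryPart_apply_coe, mul_smul_comm, mul_sub, h1, h3])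
  refine ⟨a + Complex.I * b, ?_⟩
  rw [← realPart_add_I_smul_imaginaryPart x, ha, hb, add_smul, mul_smul, Complex.coe_smul,
    Complex.coe_smul]

theorem sum_proj {ι : Type*} [Fintype ι] (v : ι → H →L[ℂ] H) (hv : ∀ i, PI (v i))
    (h : ∀ i j, i ≠ j → star (v i) * v j = 0) : IsStarProjection (∑ i, v i * star (v i)) :=
  ⟨by
    rw [IsIdempotentElem, Finset.sum_mul]
    refine Finset.sum_congr rfl fun i _ => ?_
    rw [Finset.mul_sum, Finset.sum_eq_single i (fun l _ hl => by
      rw [mul_assoc, ← mul_assoc (star (v i)), h i l hl.symm]; simp) (by simp),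
      (hv i).fin.isIdempotentElem.eq], by simp [IsSelfAdjoint, star_sum]⟩

theorem noMin_of_factor (hPM : P ≤ M) (hξ : IsFaithfulTracialVectorState M ξ) (hP : IsFactor P)
    (hdim : ¬ FiniteDimensional ℂ P.toStarSubalgebra) : NoMin P := by
  classical
  intro e heP he he0
  by_contra hn
  have hmin : ∀ f ∈ P, IsStarProjection f → e * f = f → f = 0 ∨ f = e := fun f h1 h2 h3 => by
    by_contra h
    push Not at h
    exact hn ⟨f, h1, h2, h3, h.1, h.2⟩
  let Q : ℕ → Prop := fun n => ∃ v : Fin n → H →L[ℂ] H, (∀ i, v i ∈ P ∧ star (v i) * v i = e) ∧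
    ∀ i j, i ≠ j → star (v i) * v j = 0
  have ht := tr_proj_pos hξ he (hPM heP) he0
  have hb : ∀ n, Q n → (n : ℝ) * tr ξ e ≤ 1 := by
    rintro n ⟨v, h1, h2⟩
    have := tr_proj_nonneg (ξ := ξ) (sum_proj v (fun i => pi_of_init ((h1 i).2.symm ▸ he)) h2).one_sub
    rw [tr_sub hξ, tr_one hξ, tr_sum hξ, Finset.sum_congr rfl fun i _ => by
      rw [tr_comm hξ (hPM (h1 i).1) (hPM (star_mem (h1 i).1)), (h1 i).2]] at this
    simpa using this
  obtain ⟨n, ⟨v, h1, h2⟩, hn1⟩ : ∃ n, Q n ∧ ¬Q (n + 1) := by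
    by_contra h
    push Not at h
    have : ∀ n, Q n := fun n => by
      induction n with
      | zero => exact ⟨Fin.elim0, fun i => i.elim0, fun i => i.elim0⟩
      | succ n ih => exact h n ih
    obtain ⟨n, hn⟩ := exists_nat_gt (1 / tr ξ e)
    rw [div_lt_iff₀ ht] at hn
    linarith [hb n (this n)]
  have hv : ∀ i, PI (v i) := fun i => pi_of_init ((h1 i).2.symm ▸ he)
  have hs := sum_proj v hv h2
  have hsP : ∑ i, v i * star (v i) ∈ P := sum_mem fun i _ => mul_mem (h1 i).1 (star_mem (h1 i).1)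
  have hr : 1 - ∑ i, v i * star (v i) = 0 := by
    by_contra hr
    obtain ⟨w, hw, w0, w1, w2, w3⟩ := exists_link hP he heP hs.one_sub (sub_mem (one_mem P) hsP)
      he0 hr
    have w4 : star w * w = e := (hmin _ (mul_mem (star_mem hw) hw) w1.init
      (by rw [← mul_assoc, proj_mul_star he w3])).resolve_left fun h0 =>
        w0 ((CStarRing.star_mul_self_eq_zero_iff w).1 h0)
    have w5 : ∀ i, star (v i) * w = 0 := fun i => by
      rw [← w2, ← mul_assoc, mul_sub, mul_one, Finset.mul_sum, Finset.sum_eq_single i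
        (fun l _ hl => by rw [← mul_assoc, h2 i l hl.symm, zero_mul]) (by simp), ← mul_assoc,
        (hv i).init_mul, sub_self, zero_mul]
    refine hn1 ⟨Fin.cons w v, fun i => ?_, fun i j => ?_⟩
    · refine Fin.cases ⟨hw, w4⟩ (fun i => h1 i) i
    · refine Fin.cases (Fin.cases (fun h => absurd rfl h) (fun j _ => star_zero_of (w5 j)) j)
        (fun i => Fin.cases (fun _ => w5 i) (fun j h => h2 i j fun h0 => h (by rw [h0])) j) i
  refine hdim ⟨⟨Finset.univ.image fun p : Fin n × Fin n =>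
    (⟨v p.1 * star (v p.2), mul_mem (h1 _).1 (star_mem (h1 _).1)⟩ : P.toStarSubalgebra),
    eq_top_iff.2 fun x _ => ?_⟩⟩
  have ve : ∀ i, v i * e = v i := fun i => (h1 i).2 ▸ (hv i).mul_init
  choose c hc using fun i j => scalar_of_min he heP hmin
    (mul_mem (mul_mem (star_mem (h1 i).1) x.2) (h1 j).1)
    (by rw [← mul_assoc, ← mul_assoc, proj_mul_star he (ve i)]) (by rw [mul_assoc, ve])
  have : x = ∑ i, ∑ j, c i j • (⟨v i * star (v j), mul_mem (h1 _).1 (star_mem (h1 _).1)⟩ :
      P.toStarSubalgebra) := by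
    apply Subtype.ext
    have e1 : (x : H →L[ℂ] H) = (∑ i, v i * star (v i)) * x * ∑ j, v j * star (v j) := by
      rw [← sub_eq_zero.1 hr, one_mul, mul_one]
    rw [e1, Finset.sum_mul, Finset.sum_mul]
    simp only [AddSubmonoidClass.coe_finsetSum, SetLike.val_smul]
    refine Finset.sum_congr rfl fun i _ => ?_
    rw [Finset.mul_sum]
    refine Finset.sum_congr rfl fun j _ => ?_
    calc v i * star (v i) * x * (v j * star (v j)) = v i * (star (v i) * x * v j) * star (v j) := by
          simp only [mul_assoc]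
      _ = _ := by rw [hc, mul_smul_comm, smul_mul_assoc, ve]
  rw [this]
  exact sum_mem fun i _ => sum_mem fun j _ => Submodule.smul_mem _ _ (Submodule.subset_span
    (Finset.mem_coe.2 (Finset.mem_image_of_mem _ (Finset.mem_univ (i, j)))))

theorem noAbel (hP : IsFactor P) (hm : NoMin P) : NoAbel P := fun e heP he ha => by
  by_contra h0
  obtain ⟨f, hfP, hf, h1, h2, h3⟩ := hm e heP he h0
  obtain ⟨v, hv, v0, -, v1, v2⟩ := exists_link hP hf hfP (hf.sub_of_mul_eq_right he h1)
    (sub_mem heP hfP) h2 fun h => h3 (sub_eq_zero.1 h).symm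
  have h4 := Ty.proj_le he hf h1
  have e1 : e * v * e = v := by
    have : e * v = v := by rw [← v1, ← mul_assoc, mul_sub, he.isIdempotentElem.eq, h1]
    rw [this, ← v2, mul_assoc, h4]
  have := ha v hv f hfP
  rw [e1, h1, h4, v2] at this
  exact v0 (by rw [this, ← v1, ← mul_assoc, mul_sub, h4, hf.isIdempotentElem.eq, sub_self, zero_mul])

theorem halving (hP : IsFactor P) (hm : NoMin P) {e : H →L[ℂ] H} (he : IsStarProjection e)
    (heP : e ∈ P) : ∃ v ∈ P, PI v ∧ v * v = 0 ∧ star v * v + v * star v = e :=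
  Ty.halve (noAbel hP hm) he heP

theorem partition (hPM : P ≤ M) (hξ : IsFaithfulTracialVectorState M ξ) (hP : IsFactor P)
    (hm : NoMin P) {ρ : ℝ} (hρ : 0 < ρ) :
    ∃ (ι : Type) (_ : Fintype ι) (p : ι → H →L[ℂ] H),
      (∀ i, p i ∈ P ∧ IsStarProjection (p i) ∧ tr ξ (p i) ≤ ρ) ∧
      (∀ i j, i ≠ j → p i * p j = 0) ∧ ∑ i, p i = 1 := by
  have key : ∀ k : ℕ, ∃ (ι : Type) (_ : Fintype ι) (p : ι → H →L[ℂ] H),
      (∀ i, p i ∈ P ∧ IsStarProjection (p i) ∧ tr ξ (p i) = (1 / 2 : ℝ) ^ k) ∧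
      (∀ i j, i ≠ j → p i * p j = 0) ∧ ∑ i, p i = 1 := fun k => by
    induction k with
    | zero => exact ⟨Unit, inferInstance, fun _ => 1,
        fun _ => ⟨one_mem P, IsStarProjection.one _, by simp [tr_one hξ]⟩, by simp, by simp⟩
    | succ k ih =>
      obtain ⟨ι, _, p, h1, h2, h3⟩ := ih
      choose v v1 v2 v3 v4 using fun i => halving hP hm (h1 i).2.1 (h1 i).1
      have c1 : ∀ i, tr ξ (v i * star (v i)) = tr ξ (star (v i) * v i) := fun i =>
        tr_comm hξ (hPM (v1 i)) (hPM (star_mem (v1 i)))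
      have t1 : ∀ i, tr ξ (star (v i) * v i) = (1 / 2 : ℝ) ^ (k + 1) := fun i => by
        have := (h1 i).2.2
        rw [← v4, tr_add hξ, c1] at this
        rw [pow_succ]; linarith
      have o : ∀ i, star (v i) * v i * (v i * star (v i)) = 0 := fun i => by
        rw [mul_assoc, ← mul_assoc (v i), v3]; simp
      obtain ⟨q, hq⟩ : ∃ q : ι × Bool → H →L[ℂ] H, ∀ i, q (i, true) = star (v i) * v i ∧
          q (i, false) = v i * star (v i) :=
        ⟨fun x => if x.2 then star (v x.1) * v x.1 else v x.1 * star (v x.1), by simp⟩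
      have q1 : ∀ x, IsStarProjection (q x) := by
        rintro ⟨i, _ | _⟩
        · rw [(hq i).2]; exact (v2 i).fin
        · rw [(hq i).1]; exact (v2 i).init
      have q2 : ∀ x, p x.1 * q x = q x := by
        rintro ⟨i, _ | _⟩
        · rw [(hq i).2, ← v4, add_mul, o, (v2 i).fin.isIdempotentElem.eq, zero_add]
        · rw [(hq i).1, ← v4, add_mul, Ty.proj_zero (v2 i).init (v2 i).fin (o i),
            (v2 i).init.isIdempotentElem.eq, add_zero]
      refine ⟨ι × Bool, inferInstance, q, ?_, ?_, ?_⟩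
      · rintro ⟨i, _ | _⟩
        · exact ⟨(hq i).2 ▸ mul_mem (v1 i) (star_mem (v1 i)), q1 _, by rw [(hq i).2, c1, t1]⟩
        · exact ⟨(hq i).1 ▸ mul_mem (star_mem (v1 i)) (v1 i), q1 _, by rw [(hq i).1, t1]⟩
      · rintro ⟨i, a⟩ ⟨j, b⟩ hne
        rcases eq_or_ne i j with rfl | hij
        · rcases a with _ | _ <;> rcases b with _ | _
          · exact absurd rfl hne
          · rw [(hq i).1, (hq i).2, Ty.proj_zero (v2 i).init (v2 i).fin (o i)]
          · rw [(hq i).1, (hq i).2, o]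
          · exact absurd rfl hne
        · rw [← Ty.proj_le (h1 i).2.1 (q1 _) (q2 (i, a)), ← q2 (j, b), mul_assoc,
            ← mul_assoc (p i), h2 i j hij]
          simp
      · rw [Fintype.sum_prod_type, ← h3]
        refine Finset.sum_congr rfl fun i _ => ?_
        rw [Fintype.sum_bool, (hq i).1, (hq i).2, v4]
  obtain ⟨k, hk⟩ := exists_pow_lt_of_lt_one hρ (show (1 / 2 : ℝ) < 1 by norm_num)
  obtain ⟨ι, _, p, h1, h2, h3⟩ := key k
  exact ⟨ι, inferInstance, p, fun i => ⟨(h1 i).1, (h1 i).2.1, (h1 i).2.2.trans_le hk.le⟩, h2, h3⟩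

end Crest.Agent.R95
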