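import Crest.Agent.R95.Irr
import Crest.Agent.R95.Main

/-! Row 95, task C: from four self-adjoint generators to one generator. -/

set_option autoImplicit false
set_option linter.unusedSectionVars false

open scoped InnerProductSpace ComplexOrder
open Crest.OpAlg Crest.Agent.R124

namespace Crest.Agent.R95

variable {H : Type*} [NormedAddCommGroup H] [InnerProductSpace ℂ H] [CompleteSpace H]

theorem four_gen [TopologicalSpace.SeparableSpace H] {ξ : ℕ → H} {M : VonNeumannAlgebra H}
    (hξ : IsFaithfulTracialVectorState M ξ) (hM : IsFactor M) (hm : NoMin M) :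
    ∃ a ∈ M, ∃ h ∈ M, ∃ v ∈ M, IsSelfAdjoint a ∧ IsSelfAdjoint h ∧ ‖a‖ ≤ 1 / 8 ∧ ‖h‖ ≤ 1 / 8 ∧
      ∀ N : VonNeumannAlgebra H, a ∈ N → h ∈ N → v ∈ N → M ≤ N := by
  obtain ⟨P, hPM, hP, hirr, a, ha, h, hh, sa, sh, hg⟩ := exists_irr hξ hM hm
  obtain ⟨v, hv, -, h1, -⟩ := (main P M hPM hP hirr ξ hξ).2 1 (one_mem M) (one_mem _) 1 one_pos
  have k1 : ∀ x : H →L[ℂ] H, ‖(8 * (‖x‖ + 1))⁻¹ • x‖ ≤ 1 / 8 := fun x => by
    have : 0 < ‖x‖ + 1 := by positivity
    rw [norm_smul, Real.norm_of_nonneg (by positivity), inv_mul_le_iff₀ (by positivity)]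
    linarith
  have k2 : ∀ (N : VonNeumannAlgebra H) (x : H →L[ℂ] H), (8 * (‖x‖ + 1))⁻¹ • x ∈ N → x ∈ N :=
    fun N x hx => by
      have := rsmul_mem (8 * (‖x‖ + 1)) hx
      rwa [smul_smul, mul_inv_cancel₀ (by positivity), one_smul] at this
  exact ⟨_, rsmul_mem _ ha, _, rsmul_mem _ hh, v, hv, (IsSelfAdjoint.all _).smul sa,
    (IsSelfAdjoint.all _).smul sh, k1 a, k1 h, fun N b1 b2 b3 =>
      h1 N (hg N (k2 N a b1) (k2 N h b2)) b3⟩

namespace C

variable {M : VonNeumannAlgebra H} {p w : H →L[ℂ] H}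

theorem blocks (hw : PI w) (hwM : w ∈ M) (hp : w * star w = p) (h1 : star w * w + p = 1)
    (S : Subring (H →L[ℂ] H)) (a : w ∈ S) (b : star w ∈ S) (c : ∀ y ∈ M, p * y * p ∈ S) :
    ∀ y ∈ M, y ∈ S := fun y hy => by
  have e1 : p * w = w := hp ▸ hw
  have e3 : ∀ x, p * (w * x) = w * x := fun x => by rw [← mul_assoc, e1]
  have : y = star w * (p * (w * y * star w) * p) * w + star w * (p * (w * y) * p) +
      (p * (y * star w) * p) * w + p * y * p := by
    calc y = (star w * w + p) * y * (star w * w + p) := by rw [h1, one_mul, mul_one]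
      _ = _ := by simp only [mul_add, add_mul, mul_assoc, e1, e3]; abel
  rw [this]
  exact add_mem (add_mem (add_mem (mul_mem (mul_mem b (c _ (mul_mem (mul_mem hwM hy)
    (star_mem hwM)))) a) (mul_mem b (c _ (mul_mem hwM hy))))
    (mul_mem (c _ (mul_mem hy (star_mem hwM))) a)) (c y hy)

theorem factor (hM : IsFactor M) (hw : PI w) (hwM : w ∈ M) (hp : w * star w = p)
    (h1 : star w * w + p = 1) (h0 : w * w = 0) : IsFactor (corner M p) := fun T hT hc => by
  have hpp : IsStarProjection p := hp ▸ hw.fin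
  have hpM : p ∈ M := hp ▸ mul_mem hwM (star_mem hwM)
  rw [mem_corner hpp hpM] at hT
  have t1 := mul_lift hpp T
  have t2 := lift_mul_self hpp T
  have t3 : ∀ y ∈ M, lift p T * (p * y * p) = p * y * p * lift p T := fun y hy => by
    rw [← lift_cmp hpp, ← lift_mul, hc _ (cmp_mem_corner hpp hpM hy), lift_mul]
  have h0' : star w * star w = 0 := by rw [← star_mul, h0, star_zero]
  have e1 : w * p = 0 := by rw [← hp, ← mul_assoc, h0, zero_mul]
  have e2 : p * star w = 0 := by rw [← hp, mul_assoc, h0', mul_zero]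
  generalize ht : lift p T = t at *
  have e3 : w * t = 0 := by rw [← t1, ← mul_assoc, e1, zero_mul]
  have e4 : t * star w = 0 := by rw [← t2, mul_assoc, e2, mul_zero]
  have key := blocks hw hwM hp h1 (Subring.centralizer {t + star w * t * w}) (by
    rintro _ rfl
    rw [add_mul, mul_add, mul_assoc _ w w, h0, mul_zero, add_zero, e3, zero_add, ← mul_assoc,
      ← mul_assoc, hp, t1]) (by
    rintro _ rfl
    rw [add_mul, mul_add, mul_assoc _ w, hp, e4, zero_add, ← mul_assoc, ← mul_assoc, h0',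
      zero_mul, zero_mul, add_zero, mul_assoc, t2]) (by
    rintro y hy _ rfl
    have a1 : star w * t * w * (p * y * p) = 0 := by
      rw [mul_assoc _ w, ← mul_assoc w, ← mul_assoc w, e1]; simp
    have a2 : p * y * p * (star w * t * w) = 0 := by
      rw [mul_assoc _ p, ← mul_assoc p (_ * t), ← mul_assoc p (star w), e2]; simp
    rw [add_mul, mul_add, a1, a2, t3 y hy])
  obtain ⟨c, hc⟩ := hM (t + star w * t * w) (add_mem hT (mul_mem (mul_mem (star_mem hwM) hT) hwM))
    fun y hy => key y hy _ rfl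
  refine ⟨c, lift_injective ?_⟩
  have := congrArg (p * ·) hc
  simp only [mul_add, ← mul_assoc, e2, t1, zero_mul, add_zero, mul_smul_comm, mul_one] at this
  rw [ht, this, lift_csmul, lift_one hpp]

theorem noMin (hm : NoMin M) (hp : IsStarProjection p) (hpM : p ∈ M) : NoMin (corner M p) :=
  fun e heM he h0 => by
    have a1 : IsStarProjection (lift p e) :=
      ⟨by rw [IsIdempotentElem, ← lift_mul, he.isIdempotentElem.eq],
        by rw [IsSelfAdjoint, ← lift_star, he.isSelfAdjoint.star_eq]⟩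
    obtain ⟨f, hfM, hf, f1, f2, f3⟩ := hm _ ((mem_corner hp hpM).1 heM) a1
      fun h => h0 (lift_injective (h.trans lift_zero.symm))
    have a2 : p * f = f := by rw [← f1, ← mul_assoc, mul_lift hp]
    have a3 : f * p = f := by simpa [hf.isSelfAdjoint.star_eq] using star_mul_proj hp a2
    have a4 : lift p (cmp p f) = f := by rw [lift_cmp hp, a2, a3]
    refine ⟨cmp p f, cmp_mem_corner hp hpM hfM, ⟨?_, ?_⟩, lift_injective ?_, fun h => f2 ?_,
      fun h => f3 ?_⟩
    · rw [IsIdempotentElem, cmp_mul hp, a3, hf.isIdempotentElem.eq]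
    · rw [IsSelfAdjoint, ← cmp_star, hf.isSelfAdjoint.star_eq]
    · rw [lift_mul, a4, f1]
    · rw [← a4, h, lift_zero]
    · rw [← a4, h]

theorem trace {ξ : ℕ → H} (hξ : IsFaithfulTracialVectorState M ξ) (hp : IsStarProjection p)
    (hpM : p ∈ M) (h0 : p ≠ 0) : ∃ η, IsFaithfulTracialVectorState (corner M p) η := by
  have t0 := tr_proj_pos hξ hp hpM h0
  have hc : (0 : ℝ) < (√(tr ξ p))⁻¹ := by positivity
  have key : ∀ T, vectorState (fun n => (((√(tr ξ p))⁻¹ : ℝ) : ℂ) •
      ContinuousLinearMap.adjoint (inc p) (ξ n)) T =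
      (((√(tr ξ p))⁻¹ : ℝ) : ℂ) ^ 2 * vectorState ξ (lift p T) := fun T => by
    simp only [vectorState, ← tsum_mul_left]
    refine tsum_congr fun n => ?_
    rw [map_smul, inner_smul_left, inner_smul_right, ContinuousLinearMap.adjoint_inner_left,
      Complex.conj_ofReal, sq, mul_assoc]
    rfl
  refine ⟨fun n => (((√(tr ξ p))⁻¹ : ℝ) : ℂ) • ContinuousLinearMap.adjoint (inc p) (ξ n), ?_,
    fun x hx y hy => ?_, fun x hx h => lift_injective ?_⟩
  · have h1 := (summable_nsq hξ.1 p).hasSum.mul_left ((√(tr ξ p))⁻¹ ^ 2)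
    have h2 : ∑' n, ‖p (ξ n)‖ ^ 2 = tr ξ p := by rw [← n2_proj_sq hp, n2_sq]; rfl
    rw [h2, inv_pow, Real.sq_sqrt t0.le, inv_mul_cancel₀ t0.ne'] at h1
    refine h1.congr_fun fun n => ?_
    rw [norm_smul, mul_pow, Complex.norm_real, Real.norm_of_nonneg hc.le, inv_pow,
      Real.sq_sqrt t0.le, ← inc_adj_inc hp]
    rfl
  · rw [mem_corner hp hpM] at hx hy
    rw [key, key, lift_mul, lift_mul, hξ.2.1 _ hx _ hy]
  · rw [lift_zero]
    refine hξ.2.2 _ ((mem_corner hp hpM).1 hx) fun n => ?_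
    have h1 := h n
    rw [map_smul, smul_eq_zero] at h1
    rcases h1 with h1 | h1
    · exact absurd (Complex.ofReal_eq_zero.1 h1) hc.ne'
    · simp [lift, h1]

end C

theorem single_gen [TopologicalSpace.SeparableSpace H] (M : VonNeumannAlgebra H)
    (hM : IsTypeIIOneFactor M) : ∃ x ∈ M, ∀ N : VonNeumannAlgebra H, x ∈ N → M ≤ N := by
  obtain ⟨hF, hd, ξ, hξ⟩ := hM
  have hm := noMin_of_factor le_rfl hξ hF hd
  obtain ⟨w, hwM, hw, h0, h1⟩ := halving hF hm (IsStarProjection.one _) (one_mem M)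
  have hpp := hw.fin
  have hpM := mul_mem hwM (star_mem hwM)
  generalize hp : w * star w = p at *
  have p0 : p ≠ 0 := fun h => by
    have : w = 0 := by rw [← hw, hp, h, zero_mul]
    have h2 := tr_one hξ
    rw [← h1, h, this, mul_zero, add_zero, tr_zero hξ] at h2
    exact zero_ne_one h2
  obtain ⟨η, hη⟩ := C.trace hξ hpp hpM p0
  have := UniformSpace.secondCountable_of_separable H
  obtain ⟨a, ha, h, hh, v, hv, sa, sh, na, nh, hg⟩ :=
    four_gen hη (C.factor hF hw hwM hp h1 h0) (C.noMin hm hpp hpM)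
  have h0' : star w * star w = 0 := by rw [← star_mul, h0, star_zero]
  have e1 : w * p = 0 := by rw [← hp, ← mul_assoc, h0, zero_mul]
  have e2 : p * star w = 0 := by rw [← hp, mul_assoc, h0', mul_zero]
  have e3 : p * w = w := hp ▸ hw
  have e4 : star w * p = star w := by rw [← hp, ← mul_assoc, hw.init_mul]
  have e5 : ∀ T, w * lift p T = 0 := fun T => by rw [← mul_lift hpp, ← mul_assoc, e1, zero_mul]
  have e6 : ∀ T, lift p T * star w = 0 := fun T => by
    rw [← lift_mul_self hpp, mul_assoc, e2, mul_zero]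
  have k1 : ∀ S T, p * (lift p S + star w * lift p T * w) = lift p S := fun S T => by
    rw [mul_add, mul_lift hpp, ← mul_assoc, ← mul_assoc, e2]; simp
  have k2 : ∀ S T, (lift p S + star w * lift p T * w) * p = lift p S := fun S T => by
    rw [add_mul, lift_mul_self hpp, mul_assoc, e1]; simp
  have k3 : ∀ S T, w * (lift p S + star w * lift p T * w) * star w = lift p T := fun S T => by
    rw [mul_add, e5, zero_add, ← mul_assoc, ← mul_assoc, hp, mul_lift hpp, mul_assoc, hp,
      lift_mul_self hpp]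
  have k4 : ∀ S T, IsSelfAdjoint S → IsSelfAdjoint T →
      IsSelfAdjoint (lift p S + star w * lift p T * w) := fun S T hS hT => by
    rw [IsSelfAdjoint, star_add, star_mul, star_mul, star_star, ← lift_star, ← lift_star,
      hS.star_eq, hT.star_eq, mul_assoc]
  have k5 : ∀ S ∈ corner M p, ∀ T ∈ corner M p, lift p S + star w * lift p T * w ∈ M :=
    fun S hS T hT => add_mem ((mem_corner hpp hpM).1 hS)
      (mul_mem (mul_mem (star_mem hwM) ((mem_corner hpp hpM).1 hT)) hwM)
  have sA := hpp.isSelfAdjoint.add (k4 a h sa sh)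
  have sB := (k4 _ _ (realPart v).2 (imaginaryPart v).2).add (IsSelfAdjoint.add_star_self w)
  have mA := add_mem hpM (k5 a ha h hh)
  have mB := add_mem (k5 _ (B.re_mem hv) _ (B.im_mem hv)) (add_mem hwM (star_mem hwM))
  refine ⟨_, add_mem mA (csmul_mem Complex.I mB), fun N hN => ?_⟩
  have nA := B.re_mem hN
  have nB := B.im_mem hN
  rw [map_add, realPart_I_smul, sB.imaginaryPart, neg_zero, add_zero, sA.coe_realPart] at nA
  rw [map_add, imaginaryPart_I_smul, sA.imaginaryPart, zero_add, sB.coe_realPart] at nB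
  have pN : p ∈ N := sep_proj N hpp (by rw [k1, k2]) (by
    have b1 := hw.norm_le
    calc _ ≤ ‖lift p a‖ + ‖star w‖ * ‖lift p h‖ * ‖w‖ :=
          (norm_add_le _ _).trans (by gcongr; exact norm_mul₃_le)
      _ ≤ 1 / 8 + 1 * (1 / 8) * 1 := by rw [norm_lift, norm_lift, norm_star]; gcongr
      _ < 1 / 2 := by norm_num) nA
  have tN := sub_mem nA pN
  rw [add_sub_cancel_left] at tN
  have wN : w ∈ N := by
    have := mul_mem (mul_mem pN nB) (sub_mem (one_mem N) pN)
    rwa [mul_add p, k1, mul_add, e3, e2, add_zero, mul_sub, mul_one, add_mul, lift_mul_self hpp,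
      e1, add_zero, add_sub_cancel_left] at this
  have uN := sub_mem nB (add_mem wN (star_mem wN))
  rw [add_sub_cancel_right] at uN
  have k6 : ∀ S T, lift p S + star w * lift p T * w ∈ N → S ∈ corner N p ∧ T ∈ corner N p :=
    fun S T h => ⟨(mem_corner hpp pN).2 (k1 S T ▸ mul_mem pN h),
      (mem_corner hpp pN).2 (k3 S T ▸ mul_mem (mul_mem wN h) (star_mem wN))⟩
  have hle := hg (corner N p) (k6 _ _ tN).1 (k6 _ _ tN).2 (by
    rw [← realPart_add_I_smul_imaginaryPart v]
    exact add_mem (k6 _ _ uN).1 (csmul_mem _ (k6 _ _ uN).2))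
  exact fun y hy => C.blocks hw hwM hp h1 N.toStarSubalgebra.toSubalgebra.toSubring wN
    (show star w ∈ N from star_mem wN) (fun y hy => by
      rw [← lift_cmp hpp]
      exact (mem_corner hpp pN).1 (hle (cmp_mem_corner hpp hpM hy))) y hy

end Crest.Agent.R95
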