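import Crest.Prelude.Def_VNFactor
import Crest.Agent.R124.Kap
import Crest.Agent.R95.TS

/-! Row 95: the concrete trace attached to a sequence of vectors. -/

set_option autoImplicit false
set_option linter.unusedSectionVars false

open scoped InnerProductSpace ComplexOrder
open Crest.OpAlg Crest.Agent.R124 Filter Topology

namespace Crest.Agent.R95

variable {H : Type*} [NormedAddCommGroup H] [InnerProductSpace ℂ H] [CompleteSpace H]
variable {ξ : ℕ → H} {M : VonNeumannAlgebra H}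

theorem summable_nsq (hs : HasSum (fun n => ‖ξ n‖ ^ 2) 1) (x : H →L[ℂ] H) :
    Summable fun n => ‖x (ξ n)‖ ^ 2 := by
  refine Summable.of_nonneg_of_le (fun n => by positivity) (fun n => ?_)
    (hs.summable.mul_left (‖x‖ ^ 2))
  rw [← mul_pow]
  exact pow_le_pow_left₀ (norm_nonneg _) (x.le_opNorm _) 2

theorem summable_inner (hs : HasSum (fun n => ‖ξ n‖ ^ 2) 1) (x : H →L[ℂ] H) :
    Summable fun n => ⟪ξ n, x (ξ n)⟫_ℂ := by
  refine Summable.of_norm_bounded (hs.summable.mul_left ‖x‖) fun n => ?_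
  refine (norm_inner_le_norm _ _).trans ?_
  have := x.le_opNorm (ξ n)
  nlinarith [norm_nonneg (ξ n)]

/-- The vector state as a linear map. -/
noncomputable def tauL (hs : HasSum (fun n => ‖ξ n‖ ^ 2) 1) : (H →L[ℂ] H) →ₗ[ℂ] ℂ where
  toFun := vectorState ξ
  map_add' x y := by
    simp only [vectorState, add_apply, inner_add_right]
    exact (summable_inner hs x).tsum_add (summable_inner hs y)
  map_smul' c x := by
    simp only [vectorState, smul_apply, inner_smul_right, RingHom.id_apply, smul_eq_mul]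
    exact tsum_mul_left

theorem tauL_apply (hs : HasSum (fun n => ‖ξ n‖ ^ 2) 1) (x : H →L[ℂ] H) :
    tauL hs x = vectorState ξ x := rfl

theorem vs_star_mul_self (x : H →L[ℂ] H) :
    vectorState ξ (star x * x) = (traceNormSq ξ x : ℝ) := by
  simp only [vectorState, traceNormSq, Complex.ofReal_tsum]
  refine tsum_congr fun n => ?_
  rw [mul_apply_eq_comp, ContinuousLinearMap.star_eq_adjoint,
    ContinuousLinearMap.adjoint_inner_right, inner_self_eq_norm_sq_to_K]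
  norm_cast

theorem nsq_nonneg (x : H →L[ℂ] H) : 0 ≤ traceNormSq ξ x := tsum_nonneg fun n => by positivity

theorem vs_one (hs : HasSum (fun n => ‖ξ n‖ ^ 2) 1) : vectorState ξ 1 = 1 := by
  have := vs_star_mul_self (ξ := ξ) 1
  simp only [star_one, mul_one, traceNormSq, one_apply_eq_self, hs.tsum_eq] at this
  simpa using this

instance (M : VonNeumannAlgebra H) : IsClosed (M.toStarSubalgebra : Set (H →L[ℂ] H)) :=
  isClosed_vn M

/-- The algebra `M` as a type. -/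
abbrev Alg (M : VonNeumannAlgebra H) := ↥M.toStarSubalgebra

/-- The trace of `M` as an abstract tracial state. -/
noncomputable def ts (hξ : IsFaithfulTracialVectorState M ξ) : TS (Alg M) where
  τ := tauL hξ.1 ∘ₗ M.toStarSubalgebra.subtype.toAlgHom.toLinearMap
  pos x := by
    change 0 ≤ vectorState ξ (star (x : H →L[ℂ] H) * x)
    rw [vs_star_mul_self]
    exact Complex.zero_le_real.2 (nsq_nonneg _)
  comm x y := hξ.2.1 x x.2 y y.2
  one := vs_one hξ.1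

theorem ts_τ (hξ : IsFaithfulTracialVectorState M ξ) (x : Alg M) :
    (ts hξ).τ x = vectorState ξ x := rfl

/-- The concrete trace 2-norm. -/
noncomputable def n2 (ξ : ℕ → H) (x : H →L[ℂ] H) : ℝ := √(traceNormSq ξ x)

/-- The real part of the trace. -/
noncomputable def tr (ξ : ℕ → H) (x : H →L[ℂ] H) : ℝ := (vectorState ξ x).re

theorem ts_n2 (hξ : IsFaithfulTracialVectorState M ξ) (x : Alg M) : (ts hξ).n2 x = n2 ξ x := by
  rw [TS.n2_eq]
  change √(vectorState ξ (star (x : H →L[ℂ] H) * x)).re = _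
  rw [vs_star_mul_self]; rfl

theorem n2_nonneg (x : H →L[ℂ] H) : 0 ≤ n2 ξ x := Real.sqrt_nonneg _
theorem n2_sq (x : H →L[ℂ] H) : n2 ξ x ^ 2 = traceNormSq ξ x := Real.sq_sqrt (nsq_nonneg x)
theorem n2_sq' (x : H →L[ℂ] H) : n2 ξ x ^ 2 = tr ξ (star x * x) := by
  rw [n2_sq, tr, vs_star_mul_self]; rfl

theorem norm_apply_le_n2 (hs : HasSum (fun n => ‖ξ n‖ ^ 2) 1) (x : H →L[ℂ] H) (n : ℕ) :
    ‖x (ξ n)‖ ≤ n2 ξ x :=
  Real.le_sqrt_of_sq_le ((summable_nsq hs x).le_tsum n fun m _ => by positivity)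

section
variable (hξ : IsFaithfulTracialVectorState M ξ)
include hξ

theorem tr_add (x y : H →L[ℂ] H) : tr ξ (x + y) = tr ξ x + tr ξ y := by
  simp only [tr, ← tauL_apply hξ.1, map_add, Complex.add_re]
theorem tr_sub (x y : H →L[ℂ] H) : tr ξ (x - y) = tr ξ x - tr ξ y := by
  simp only [tr, ← tauL_apply hξ.1, map_sub, Complex.sub_re]
theorem tr_zero : tr ξ 0 = 0 := by simp only [tr, ← tauL_apply hξ.1, map_zero, Complex.zero_re]
theorem tr_one : tr ξ 1 = 1 := by simp only [tr, vs_one hξ.1, Complex.one_re]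
theorem tr_sum {ι : Type*} (s : Finset ι) (x : ι → H →L[ℂ] H) :
    tr ξ (∑ i ∈ s, x i) = ∑ i ∈ s, tr ξ (x i) := by
  simp only [tr, ← tauL_apply hξ.1, map_sum, Complex.re_sum]
theorem tr_comm {x y : H →L[ℂ] H} (hx : x ∈ M) (hy : y ∈ M) : tr ξ (x * y) = tr ξ (y * x) := by
  simp only [tr, hξ.2.1 x hx y hy]
omit hξ in
theorem n2_proj_sq {e : H →L[ℂ] H} (he : IsStarProjection e) : n2 ξ e ^ 2 = tr ξ e := by
  rw [n2_sq', he.isSelfAdjoint.star_eq, he.isIdempotentElem.eq]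
omit hξ in
theorem tr_proj_nonneg {e : H →L[ℂ] H} (he : IsStarProjection e) : 0 ≤ tr ξ e := by
  rw [← n2_proj_sq he]; positivity

theorem eq_zero_of_n2 {x : H →L[ℂ] H} (hx : x ∈ M) (h : n2 ξ x = 0) : x = 0 :=
  hξ.2.2 x hx fun n => norm_le_zero_iff.1 (h ▸ norm_apply_le_n2 hξ.1 x n)

theorem tr_proj_pos {e : H →L[ℂ] H} (he : IsStarProjection e) (heM : e ∈ M) (h0 : e ≠ 0) :
    0 < tr ξ e := by
  rw [← n2_proj_sq he]
  exact pow_pos ((n2_nonneg e).lt_of_ne fun h => h0 (eq_zero_of_n2 hξ heM h.symm)) 2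

theorem n2_add_le {x y : H →L[ℂ] H} (hx : x ∈ M) (hy : y ∈ M) :
    n2 ξ (x + y) ≤ n2 ξ x + n2 ξ y := by
  have := (ts hξ).n2_add_le ⟨x, hx⟩ ⟨y, hy⟩
  simp only [ts_n2] at this; exact this
theorem n2_sub_le {x y : H →L[ℂ] H} (hx : x ∈ M) (hy : y ∈ M) :
    n2 ξ (x - y) ≤ n2 ξ x + n2 ξ y := by
  have := (ts hξ).n2_sub_le ⟨x, hx⟩ ⟨y, hy⟩
  simp only [ts_n2] at this; exact this
theorem n2_sub_comm {x y : H →L[ℂ] H} (hx : x ∈ M) (hy : y ∈ M) :
    n2 ξ (x - y) = n2 ξ (y - x) := by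
  have := (ts hξ).n2_sub_comm ⟨x, hx⟩ ⟨y, hy⟩
  simp only [ts_n2] at this; exact this
theorem n2_tri {x y z : H →L[ℂ] H} (hx : x ∈ M) (hy : y ∈ M) (hz : z ∈ M) :
    n2 ξ (x - z) ≤ n2 ξ (x - y) + n2 ξ (y - z) := by
  have := (ts hξ).n2_tri ⟨x, hx⟩ ⟨y, hy⟩ ⟨z, hz⟩
  simp only [ts_n2] at this; exact this
theorem n2_star {x : H →L[ℂ] H} (hx : x ∈ M) : n2 ξ (star x) = n2 ξ x := by
  have := (ts hξ).n2_star ⟨x, hx⟩
  simp only [ts_n2] at this; exact this
theorem n2_mul_le {x y : H →L[ℂ] H} (hx : x ∈ M) (hy : y ∈ M) :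
    n2 ξ (x * y) ≤ ‖x‖ * n2 ξ y := by
  have := (ts hξ).n2_mul_le ⟨x, hx⟩ ⟨y, hy⟩
  simp only [ts_n2] at this; exact this
theorem n2_mul_le' {x y : H →L[ℂ] H} (hx : x ∈ M) (hy : y ∈ M) :
    n2 ξ (x * y) ≤ n2 ξ x * ‖y‖ := by
  have := (ts hξ).n2_mul_le' ⟨x, hx⟩ ⟨y, hy⟩
  simp only [ts_n2] at this; exact this
theorem n2_le_norm {x : H →L[ℂ] H} (hx : x ∈ M) : n2 ξ x ≤ ‖x‖ := by
  have := (ts hξ).n2_le_norm ⟨x, hx⟩
  simp only [ts_n2] at this; exact this

/-- Vectors `a' ξ_n` span a dense subspace: a bounded net that is 2-norm small is strongly small. -/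
theorem strong_of_n2 (η : H) {C ε : ℝ} (hC : 0 ≤ C) (hε : 0 < ε) :
    ∃ δ > 0, ∀ x ∈ M, ‖x‖ ≤ C → n2 ξ x ≤ δ → ‖x η‖ ≤ ε := by
  let U : Submodule ℂ H :=
    { carrier := {η | ∀ ε > 0, ∃ δ > 0, ∀ x ∈ M, ‖x‖ ≤ C → n2 ξ x ≤ δ → ‖x η‖ ≤ ε}
      zero_mem' := fun ε hε => ⟨1, one_pos, fun x _ _ _ => by simp [hε.le]⟩
      add_mem' := fun {a b} ha hb ε hε => by
        obtain ⟨δ, hδ, h1⟩ := ha (ε / 2) (half_pos hε)
        obtain ⟨δ', hδ', h2⟩ := hb (ε / 2) (half_pos hε)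
        refine ⟨min δ δ', lt_min hδ hδ', fun x hx hxC hn => ?_⟩
        rw [map_add]
        linarith [norm_add_le (x a) (x b), h1 x hx hxC (hn.trans (min_le_left _ _)),
          h2 x hx hxC (hn.trans (min_le_right _ _))]
      smul_mem' := fun c a ha ε hε => by
        obtain ⟨δ, hδ, h1⟩ := ha (ε / (‖c‖ + 1)) (by positivity)
        refine ⟨δ, hδ, fun x hx hxC hn => ?_⟩
        rw [map_smul, norm_smul]
        calc ‖c‖ * ‖x a‖ ≤ (‖c‖ + 1) * (ε / (‖c‖ + 1)) := by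
              gcongr
              · linarith
              · exact h1 x hx hxC hn
          _ = ε := by field_simp }
  obtain ⟨p, h1, h2, h3⟩ := exists_pr {y | ∃ b ∈ M.commutant, ∃ n, y = b (ξ n)}
  have key : ∀ b ∈ M.commutant, (1 - p) * b * p = 0 := fun b hb => h3 _ (by
    rintro _ ⟨a, ha, n, rfl⟩
    have := h2 _ ⟨b * a, mul_mem hb ha, n, rfl⟩
    simp only [mul_apply_eq_comp, sub_apply, one_apply_eq_self] at this ⊢
    rw [this, sub_self])
  have hp : p ∈ M := mem_of_comm M fun b hb => comm_of_inv h1 (key b hb) (key _ (star_mem hb))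
  have hp1 : 1 - p = 0 := hξ.2.2 _ (sub_mem (one_mem M) hp) fun n => by
    have := h2 _ ⟨1, one_mem _, n, rfl⟩
    simp only [one_apply_eq_self] at this
    simp [this]
  obtain ⟨q1, q2, q3⟩ := closure_proj U
  have q4 := U.topologicalClosure.starProjection_apply_mem η
  generalize U.topologicalClosure.starProjection = q at q1 q2 q3 q4
  have q5 : (1 - q) * p = 0 := h3 _ (by
    rintro _ ⟨b, hb, n, rfl⟩
    have : b (ξ n) ∈ U := fun ε hε => ⟨ε / (‖b‖ + 1), by positivity, fun x hx _ hn => by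
      have e : x (b (ξ n)) = b (x (ξ n)) := (DFunLike.congr_fun (comm_of_mem hx hb) _).symm
      rw [e]
      calc _ ≤ ‖b‖ * ‖x (ξ n)‖ := b.le_opNorm _
        _ ≤ (‖b‖ + 1) * (ε / (‖b‖ + 1)) := by
          gcongr
          · linarith
          · exact (norm_apply_le_n2 hξ.1 x n).trans hn
        _ = ε := by field_simp⟩
    simp [q2 _ this])
  rw [← sub_eq_zero.1 hp1, mul_one] at q5
  rw [← sub_eq_zero.1 q5, one_apply_eq_self] at q4
  obtain ⟨η', hη', hd⟩ := Metric.mem_closure_iff.1 q4 (ε / 2 / (C + 1)) (by positivity)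
  obtain ⟨δ, hδ, h⟩ := hη' (ε / 2) (half_pos hε)
  refine ⟨δ, hδ, fun x hx hxC hn => ?_⟩
  have e : x η = x η' + x (η - η') := by simp
  rw [dist_eq_norm] at hd
  have h5 : ‖x (η - η')‖ ≤ ε / 2 := by
    calc _ ≤ ‖x‖ * ‖η - η'‖ := x.le_opNorm _
      _ ≤ (C + 1) * (ε / 2 / (C + 1)) := by gcongr; linarith
      _ = ε / 2 := by field_simp
  rw [e]
  linarith [norm_add_le (x η') (x (η - η')), h x hx hxC hn]

/-- A bounded 2-norm limit of elements of `N` lies in `N`. -/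
theorem mem_of_n2_lim (N : VonNeumannAlgebra H) {x : H →L[ℂ] H} (hx : x ∈ M) {C : ℝ}
    (h : ∀ ε > 0, ∃ y ∈ N, y ∈ M ∧ ‖y‖ ≤ C ∧ n2 ξ (y - x) ≤ ε) : x ∈ N := by
  refine mem_of_comm N fun b hb => ?_
  ext η
  rw [← sub_eq_zero, ← norm_le_zero_iff]
  refine le_of_forall_pos_le_add fun ε hε => ?_
  have hb0 : 0 < ‖b‖ + 1 := by positivity
  have hC : 0 ≤ |C| + ‖x‖ := by positivity
  obtain ⟨δ, hδ, h1⟩ := strong_of_n2 hξ η hC (div_pos hε hb0)
  obtain ⟨δ', hδ', h2⟩ := strong_of_n2 hξ (b η) hC (div_pos hε hb0)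
  obtain ⟨y, hyN, hyM, hyC, hy⟩ := h (min δ δ') (lt_min hδ hδ')
  have hn : ‖y - x‖ ≤ |C| + ‖x‖ := (norm_sub_le _ _).trans (by linarith [le_abs_self C])
  have h3 := h1 _ (sub_mem hyM hx) hn (hy.trans (min_le_left _ _))
  have h4 := h2 _ (sub_mem hyM hx) hn (hy.trans (min_le_right _ _))
  have h5 : b (y η) = y (b η) := DFunLike.congr_fun (comm_of_mem hyN hb) η
  have h6 : (b * x) η - (x * b) η = (y - x) (b η) - b ((y - x) η) := by
    simp only [mul_apply_eq_comp, sub_apply, map_sub, h5]; abel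
  rw [h6, zero_add]
  calc _ ≤ ‖(y - x) (b η)‖ + ‖b‖ * ‖(y - x) η‖ :=
        (norm_sub_le _ _).trans (by gcongr; exact b.le_opNorm _)
    _ ≤ ε / (‖b‖ + 1) + ‖b‖ * (ε / (‖b‖ + 1)) := by gcongr
    _ = ε := by field_simp; ring

omit hξ in
/-- Closeness on finitely many `ξ n` gives 2-norm closeness for bounded operators. -/
theorem n2_of_fin (hs : HasSum (fun n => ‖ξ n‖ ^ 2) 1) (C : ℝ) {ε : ℝ} (hε : 0 < ε) :
    ∃ (N : ℕ) (δ : ℝ), 0 < δ ∧ ∀ x : H →L[ℂ] H, ‖x‖ ≤ C → (∀ n < N, ‖x (ξ n)‖ ≤ δ) →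
      n2 ξ x ≤ ε := by
  have h1 := tendsto_sum_nat_add (fun n => ‖ξ n‖ ^ 2)
  obtain ⟨N, hN⟩ := (h1.eventually (gt_mem_nhds (show (0 : ℝ) < ε ^ 2 / 2 / (C ^ 2 + 1) by
    positivity))).exists
  refine ⟨N, √(ε ^ 2 / 2 / (N + 1)), by positivity, fun x hx h => ?_⟩
  rw [n2, Real.sqrt_le_iff, traceNormSq, ← (summable_nsq hs x).sum_add_tsum_nat_add N]
  refine ⟨hε.le, ?_⟩
  have a1 : ∑ i ∈ Finset.range N, ‖x (ξ i)‖ ^ 2 ≤ ε ^ 2 / 2 := by
    calc _ ≤ ∑ _i ∈ Finset.range N, ε ^ 2 / 2 / (N + 1) := Finset.sum_le_sum fun i hi => by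
          have := pow_le_pow_left₀ (norm_nonneg _) (h i (Finset.mem_range.1 hi)) 2
          rwa [Real.sq_sqrt (by positivity)] at this
      _ ≤ (N + 1) * (ε ^ 2 / 2 / (N + 1)) := by
          rw [Finset.sum_const, Finset.card_range, nsmul_eq_mul]; gcongr; linarith
      _ = _ := by field_simp
  have a2 : ∑' i, ‖x (ξ (i + N))‖ ^ 2 ≤ ε ^ 2 / 2 := by
    calc _ ≤ ∑' i, (C ^ 2 + 1) * ‖ξ (i + N)‖ ^ 2 := by
          refine Summable.tsum_le_tsum (fun i => ?_)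
            ((summable_nat_add_iff N).2 (summable_nsq hs x))
            (((summable_nat_add_iff N).2 hs.summable).mul_left _)
          have := pow_le_pow_left₀ (norm_nonneg _) ((x.le_opNorm (ξ (i + N))).trans
            (mul_le_mul_of_nonneg_right hx (norm_nonneg _))) 2
          nlinarith [sq_nonneg ‖ξ (i + N)‖]
      _ = (C ^ 2 + 1) * ∑' i, ‖ξ (i + N)‖ ^ 2 := tsum_mul_left
      _ ≤ (C ^ 2 + 1) * (ε ^ 2 / 2 / (C ^ 2 + 1)) := by gcongr
      _ = _ := by field_simp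
  linarith

omit hξ in
/-- Separability of bounded sets for the 2-norm. -/
theorem exists_dense [TopologicalSpace.SeparableSpace H] (hs : HasSum (fun n => ‖ξ n‖ ^ 2) 1)
    (S : Set (H →L[ℂ] H)) (hne : S.Nonempty) {C : ℝ} (hS : ∀ x ∈ S, ‖x‖ ≤ C) :
    ∃ d : ℕ → H →L[ℂ] H, (∀ k, d k ∈ S) ∧ ∀ x ∈ S, ∀ ε > 0, ∃ k, n2 ξ (x - d k) ≤ ε := by
  let φ : (H →L[ℂ] H) → (ℕ → H) := fun x n => x (ξ n)
  have : SecondCountableTopology H := UniformSpace.secondCountable_of_separable H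
  obtain ⟨D, hD2, hD1, hD3⟩ := (TopologicalSpace.IsSeparable.of_separableSpace (φ '' S)).exists_countable_dense_subset
  have hDne : D.Nonempty := by
    obtain ⟨x, hx⟩ := hne
    exact closure_nonempty_iff.1 ⟨_, hD3 ⟨x, hx, rfl⟩⟩
  obtain ⟨f, rfl⟩ := hD1.exists_eq_range hDne
  have : ∀ k, ∃ x ∈ S, φ x = f k := fun k => hD2 ⟨k, rfl⟩
  choose d hd1 hd2 using this
  refine ⟨d, hd1, fun x hx ε hε => ?_⟩
  obtain ⟨N, δ, hδ, h⟩ := n2_of_fin hs (C + C) hε
  have hV : {g : ℕ → H | ∀ n ∈ Finset.range N, ‖φ x n - g n‖ < δ} ∈ 𝓝 (φ x) := by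
    refine (Filter.eventually_all_finset _).2 fun n _ => ?_
    have : Continuous fun g : ℕ → H => ‖φ x n - g n‖ := by fun_prop
    exact (this.tendsto _).eventually (gt_mem_nhds (by simpa using hδ))
  obtain ⟨_, hk, k, rfl⟩ := mem_closure_iff_nhds.1 (hD3 ⟨x, hx, rfl⟩) _ hV
  refine ⟨k, h _ ((norm_sub_le _ _).trans (add_le_add (hS _ hx) (hS _ (hd1 k)))) fun n hn => ?_⟩
  have := hk n (Finset.mem_range.2 hn)
  rw [← hd2] at this
  exact this.le

theorem ts_faith : (ts hξ).Faith := fun x hx =>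
  Subtype.ext (eq_zero_of_n2 hξ x.2 (by rwa [ts_n2] at hx))

theorem ts_comp : (ts hξ).Comp := by
  intro x C hC hx
  have hC0 : 0 ≤ C := (norm_nonneg _).trans (hC 0)
  have hC' : ∀ k, ‖(x k : H →L[ℂ] H)‖ ≤ C := hC
  have h1 : ∀ η, CauchySeq fun k => (x k : H →L[ℂ] H) η := fun η => by
    refine Metric.cauchySeq_iff.2 fun ε hε => ?_
    obtain ⟨δ, hδ, h⟩ := strong_of_n2 hξ η (add_nonneg hC0 hC0) (half_pos hε)
    obtain ⟨N, hN⟩ := hx δ hδ
    refine ⟨N, fun k hk l hl => ?_⟩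
    have := h _ (x k - x l).2 ((norm_sub_le (x k : H →L[ℂ] H) (x l)).trans
      (add_le_add (hC' k) (hC' l))) (by rw [← ts_n2 hξ]; exact hN k hk l hl)
    rw [dist_eq_norm]
    exact lt_of_le_of_lt this (half_lt_self hε)
  choose g hg using fun η => cauchySeq_tendsto_of_complete (h1 η)
  have hgb : ∀ η, ‖g η‖ ≤ C * ‖η‖ := fun η => le_of_tendsto' (hg η).norm fun k =>
    ((x k : H →L[ℂ] H).le_opNorm η).trans (by gcongr; exact hC' k)
  let y : H →L[ℂ] H := LinearMap.mkContinuous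
    { toFun := g
      map_add' := fun a b => tendsto_nhds_unique (hg (a + b))
        (by simpa only [map_add] using (hg a).add (hg b))
      map_smul' := fun c a => tendsto_nhds_unique (hg (c • a))
        (by simpa only [map_smul, RingHom.id_apply] using (hg a).const_smul c) } C hgb
  have hy : ∀ η, y η = g η := fun η => rfl
  have hyC : ‖y‖ ≤ C := LinearMap.mkContinuous_norm_le _ hC0 _
  have hyM : y ∈ M := mem_of_comm M fun b hb => by
    ext η
    simp only [mul_apply_eq_comp, hy]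
    refine tendsto_nhds_unique ((b.continuous.tendsto _).comp (hg η)) ((hg (b η)).congr fun k => ?_)
    exact (DFunLike.congr_fun (comm_of_mem (x k).2 hb) η).symm
  refine ⟨⟨y, hyM⟩, hyC, fun ε hε => ?_⟩
  obtain ⟨N, δ, hδ, h⟩ := n2_of_fin hξ.1 (C + C) hε
  have : ∀ᶠ k in atTop, ∀ n ∈ Finset.range N, ‖(x k : H →L[ℂ] H) (ξ n) - g (ξ n)‖ < δ :=
    (Filter.eventually_all_finset _).2 fun n _ =>
      (tendsto_iff_norm_sub_tendsto_zero.1 (hg (ξ n))).eventually (gt_mem_nhds hδ)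
  obtain ⟨K, hK⟩ := eventually_atTop.1 this
  refine ⟨K, fun k hk => ?_⟩
  rw [ts_n2]
  exact h _ ((norm_sub_le (x k : H →L[ℂ] H) y).trans (add_le_add (hC' k) hyC))
    fun n hn => (hK k hk n (Finset.mem_range.2 hn)).le

end

end Crest.Agent.R95
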